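import Vale.Agent.P245.Bdl.B2

/-! # P245: a dimension-free defective logarithmic Sobolev inequality at a bounded level

If `∫ exp(|x|²/2) dμ ≤ e^W` then `DB μ 11 W`. -/

open MeasureTheory Real Set Filter Topology
open scoped ENNReal ContDiff

namespace Vale.Agent.P245.N

open LS E1

variable {n : ℕ} {μ : Measure (Fin n → ℝ)} [IsProbabilityMeasure μ] {R : ℝ}

/-- exponential moment of the square of the norm -/
def ExpW (μ : Measure (Fin n → ℝ)) (W : ℝ) : Prop :=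
  ∫ x, exp ((∑ i, x i ^ 2) / 2) ∂μ ≤ exp W

omit [IsProbabilityMeasure μ] in
lemma adm_E (h : CSupp μ R) : Adm μ fun x => exp ((∑ i, x i ^ 2) / 2) :=
  Adm.of_continuous h (by fun_prop)

/-- Jensen's inequality for the posterior mean -/
lemma exp_bar (h : CSupp μ R) (p : ℝ × (Fin n → ℝ)) :
    exp ((∑ i, Mf μ (fun x => x i) p ^ 2) / 2) ≤ Mf μ (fun x => exp ((∑ i, x i ^ 2) / 2)) p := by
  obtain ⟨b, hb⟩ : ∃ b : Fin n → ℝ, ∀ i, b i = Mf μ (fun x => x i) p := ⟨_, fun i => rfl⟩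
  simp_rw [← hb]
  set c := ∑ i, b i ^ 2 with hc
  have hlin : ∀ i ∈ (Finset.univ : Finset (Fin n)), Adm μ fun x => b i * x i :=
    fun i _ => (h.adm_coord i).const_mul _
  have hs : Adm μ fun x => ∑ i, b i * x i := Adm.sum _ hlin
  have hlow : Adm μ fun x => exp (c / 2) * ((∑ i, b i * x i) + (1 - c)) :=
    (hs.add (Adm.const μ (1 - c))).const_mul _
  have key := Mf_mono h hlow (adm_E h) (Eventually.of_forall fun x => by
    have h1 : (∑ i, b i * x i) - c / 2 ≤ (∑ i, x i ^ 2) / 2 := by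
      have : 0 ≤ ∑ i, (x i - b i) ^ 2 := Finset.sum_nonneg fun i _ => sq_nonneg _
      have e : ∑ i, (x i - b i) ^ 2 = ∑ i, x i ^ 2 - 2 * ∑ i, b i * x i + c := by
        rw [hc, Finset.mul_sum, ← Finset.sum_sub_distrib, ← Finset.sum_add_distrib]
        apply Finset.sum_congr rfl; intro i _; ring
      rw [e] at this
      linarith only [this]
    calc exp (c / 2) * ((∑ i, b i * x i) + (1 - c))
        ≤ exp (c / 2) * exp ((∑ i, b i * x i) - c) := by
          apply mul_le_mul_of_nonneg_left _ (exp_pos _).le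
          have := Real.add_one_le_exp ((∑ i, b i * x i) - c)
          linarith only [this]
      _ = exp ((∑ i, b i * x i) - c / 2) := by rw [← exp_add]; congr 1; ring
      _ ≤ exp ((∑ i, x i ^ 2) / 2) := exp_le_exp.2 h1) p
  have e : Mf μ (fun x => exp (c / 2) * ((∑ i, b i * x i) + (1 - c))) p = exp (c / 2) := by
    rw [Mf_const_mul, Mf_add h hs (Adm.const μ (1 - c)), Mf_const h, Mf_sum h _ hlin]
    simp_rw [Mf_const_mul, ← hb]
    have : ∑ i, b i * b i = c := by rw [hc]; apply Finset.sum_congr rfl; intro i _; ring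
    rw [this]; ring
  rw [e] at key
  exact key

/-- second moment bound by entropy -/
lemma G2_w (h : CSupp μ R) {W : ℝ} (hW : ExpW μ W) {g : (Fin n → ℝ) → ℝ} (hg : Adm μ g) {ε : ℝ}
    (hε : 0 < ε) (hgε : ∀ᵐ x ∂μ, ε ≤ g x) (hg1 : ∫ x, g x ∂μ = 1) :
    ∫ x, (∑ i, x i ^ 2) * g x ∂μ ≤ 2 * (∫ x, g x * log (g x) ∂μ) + 2 * W := by
  have hlg := hg.log hε hgε
  have hV := adm_E (μ := μ) h
  have hS : Adm μ fun x => (∑ i, x i ^ 2) * g x := h.adm_sq.mul hg
  have i1 : Integrable (fun x => 1 / 2 * ((∑ i, x i ^ 2) * g x) - W * g x) μ :=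
    (hS.integrable.const_mul _).sub' (hg.integrable.const_mul _)
  have i2 := (hg.mul hlg).integrable
  have i3 := hg.integrable
  have i4 := hV.integrable.const_mul (exp (-W))
  have hpt : ∀ᵐ x ∂μ, 1 / 2 * ((∑ i, x i ^ 2) * g x) - W * g x
      ≤ g x * log (g x) - g x + exp (-W) * exp ((∑ i, x i ^ 2) / 2) := by
    filter_upwards [hgε] with x hx
    have h1 := mul_le_mul_log_add_exp (a := g x) (b := (∑ i, x i ^ 2) / 2 - W)
      (hε.le.trans hx)
    have e : exp ((∑ i, x i ^ 2) / 2 - W) = exp (-W) * exp ((∑ i, x i ^ 2) / 2) := by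
      rw [← exp_add]; congr 1; ring
    rw [e] at h1
    linarith only [h1]
  have key := integral_mono_ae i1 (int_add (i2.sub' i3) i4) hpt
  rw [integral_sub (hS.integrable.const_mul _) (hg.integrable.const_mul _),
    integral_add (i2.sub' i3) i4, integral_sub i2 i3, integral_const_mul, integral_const_mul,
    integral_const_mul, hg1] at key
  have h5 : exp (-W) * ∫ x, exp ((∑ i, x i ^ 2) / 2) ∂μ ≤ 1 := by
    have := mul_le_mul_of_nonneg_left hW (exp_pos (-W)).le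
    rwa [← exp_add, neg_add_cancel, exp_zero] at this
  linarith only [key, h5]

/-- Jensen's inequality: the channel entropy is at most the entropy -/
lemma eC_le (h : CSupp μ R) {g : (Fin n → ℝ) → ℝ} (hg : Adm μ g) {ε : ℝ}
    (hε : 0 < ε) (hgε : ∀ᵐ x ∂μ, ε ≤ g x) (r : ℝ) :
    eC μ g r ≤ ∫ x, g x * log (g x) ∂μ := by
  have hM0 : ∀ p, 0 < Mf μ g p := fun p => hε.trans_le (Mf_ge h hg hgε p)
  have hlg := hg.log hε hgε
  have hglg : Adm μ fun x => g x * log (g x) := hg.mul hlg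
  have c0 := cpath (n := n) r
  have I1 : Integrable (fun z : Fin n → ℝ => Zf μ (fun x => g x * log (g x)) (r ^ 2, r • z))
      (gsn n) := (eg1_Zf h hglg r).int ((cont_Zf h hglg).comp c0)
  have hBl := B2_MlogM h hg hε hgε (r ^ 2)
  have I4 : Integrable (fun z : Fin n → ℝ => Zo μ (r ^ 2, r • z) *
      (Mf μ g (r ^ 2, r • z) * log (Mf μ g (r ^ 2, r • z)))) (gsn n) :=
    ((eg1_Zf h (Adm.const μ 1) r).mul (eg1_of_Bd hBl.bd0)).int
      (((cont_Zf h (Adm.const μ 1)).comp c0).mul (hBl.cd.continuous.comp c0))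
  rw [← tower_one h hglg r]
  refine integral_mono I4 I1 fun z => ?_
  simp only
  set p : ℝ × (Fin n → ℝ) := (r ^ 2, r • z) with hp
  have hM := hM0 p
  rw [Zf_eq_mul h]
  apply mul_le_mul_of_nonneg_left _ (Zo_pos h p).le
  set M := Mf μ g p with hMdef
  have hlow : Adm μ fun x => (1 + log M) * g x + (-M) := (hg.const_mul _).add (Adm.const μ _)
  have key := Mf_mono h hlow hglg (by
    filter_upwards [hgε] with x hx
    have h1 := mul_le_mul_log_add_exp (a := g x) (b := log M) (hε.le.trans hx)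
    rw [exp_log hM] at h1
    linarith only [h1]) p
  rw [Mf_add h (hg.const_mul _) (Adm.const μ _), Mf_const_mul, Mf_const h, ← hMdef] at key
  linarith only [key]

/-- Cauchy-Schwarz for the posterior -/
lemma mf_cs (h : CSupp μ R) {g : (Fin n → ℝ) → ℝ} (hg : Adm μ g) {ε : ℝ}
    (hε : 0 < ε) (hgε : ∀ᵐ x ∂μ, ε ≤ g x) (p : ℝ × (Fin n → ℝ)) (i : Fin n) :
    Mf μ (fun x => x i * g x) p ^ 2 / Mf μ g p ≤ Mf μ (fun x => x i ^ 2 * g x) p := by
  have hM : 0 < Mf μ g p := hε.trans_le (Mf_ge h hg hgε p)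
  have a1 : Adm μ fun x => x i * g x := hg.xmul h i
  have a2 : Adm μ fun x => x i ^ 2 * g x := by
    have h2 : Adm μ fun x => x i ^ 2 := by simpa [sq] using (h.adm_coord i).mul (h.adm_coord i)
    exact h2.mul hg
  set M := Mf μ g p with hMd
  set m := Mf μ (fun x => x i * g x) p with hm
  have b1 : Adm μ fun x => 2 * (m / M) * (x i * g x) := a1.const_mul _
  have b2 : Adm μ fun x => -(m / M) ^ 2 * g x := hg.const_mul _
  have key := Mf_mono h (b1.add b2) a2 (by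
    filter_upwards [hgε] with x hx
    have hgx : 0 ≤ g x := hε.le.trans hx
    have := mul_nonneg hgx (sq_nonneg (x i - m / M))
    linarith only [this]) p
  rw [Mf_add h b1 b2, Mf_const_mul, Mf_const_mul, ← hm, ← hMd] at key
  have e : 2 * (m / M) * m + -(m / M) ^ 2 * M = m ^ 2 / M := by field_simp; ring
  rw [e] at key
  exact key

/-- the pointwise bound -/
lemma post_pw (h : CSupp μ R) {g : (Fin n → ℝ) → ℝ} (hg : Adm μ g) {ε : ℝ} (hε : 0 < ε)
    (hgε : ∀ᵐ x ∂μ, ε ≤ g x) (W : ℝ) (p : ℝ × (Fin n → ℝ)) :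
    Zo μ p * ((Mf μ g p)⁻¹ * ∑ i, dI i (Mf μ g) p ^ 2)
      ≤ 2 * Zf μ (fun x => (∑ i, x i ^ 2) * g x) p + 4 * (W - 1) * Zf μ g p
        + 4 * (Zo μ p * (Mf μ g p * log (Mf μ g p)))
        + 4 * exp (-W) * Zf μ (fun x => exp ((∑ i, x i ^ 2) / 2)) p := by
  have hz := Zo_pos h p
  have hM : 0 < Mf μ g p := hε.trans_le (Mf_ge h hg hgε p)
  have e1 : ∀ i, dI i (Mf μ g) p
      = Mf μ (fun x => x i * g x) p - Mf μ g p * Mf μ (fun x => x i) p := by
    intro i; rw [dI_Mf h hg]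
  have e2 : ∀ i, (Mf μ g p)⁻¹ * dI i (Mf μ g) p ^ 2
      ≤ 2 * Mf μ (fun x => x i ^ 2 * g x) p + 2 * (Mf μ g p * Mf μ (fun x => x i) p ^ 2) := by
    intro i
    have hcs := mf_cs h hg hε hgε p i
    rw [e1 i]
    set a := Mf μ (fun x => x i * g x) p with ha
    set b := Mf μ (fun x => x i) p with hb
    have e4 : (a - Mf μ g p * b) ^ 2 ≤ 2 * a ^ 2 + 2 * (Mf μ g p * b) ^ 2 := by
      linarith only [sq_nonneg (a + Mf μ g p * b)]
    have e5 := mul_le_mul_of_nonneg_left e4 (inv_pos.2 hM).le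
    have e6 : (Mf μ g p)⁻¹ * (2 * a ^ 2 + 2 * (Mf μ g p * b) ^ 2) =
        2 * (a ^ 2 / Mf μ g p) + 2 * (Mf μ g p * b ^ 2) := by
      (clear * - hM; field_simp)
    rw [e6] at e5
    linarith only [e5, hcs]
  have hadm : ∀ i ∈ (Finset.univ : Finset (Fin n)), Adm μ fun x => x i ^ 2 * g x := by
    intro i _
    have h2 : Adm μ fun x => x i ^ 2 := by simpa [sq] using (h.adm_coord i).mul (h.adm_coord i)
    exact h2.mul hg
  have e3 : Mf μ (fun x => (∑ i, x i ^ 2) * g x) p = ∑ i, Mf μ (fun x => x i ^ 2 * g x) p := by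
    rw [← Mf_sum h _ hadm]
    congr 1; funext x; rw [Finset.sum_mul]
  set s := ∑ i, Mf μ (fun x => x i) p ^ 2 with hs
  have e4 : (Mf μ g p)⁻¹ * ∑ i, dI i (Mf μ g) p ^ 2
      ≤ 2 * Mf μ (fun x => (∑ i, x i ^ 2) * g x) p + 2 * (Mf μ g p * s) := by
    rw [e3, Finset.mul_sum, Finset.mul_sum, hs, Finset.mul_sum, Finset.mul_sum,
      ← Finset.sum_add_distrib]
    exact Finset.sum_le_sum fun i _ => e2 i
  have e5 : Mf μ g p * (s / 2 - W) ≤ Mf μ g p * log (Mf μ g p) - Mf μ g p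
      + exp (-W) * Mf μ (fun x => exp ((∑ i, x i ^ 2) / 2)) p := by
    have h1 := mul_le_mul_log_add_exp (a := Mf μ g p) (b := s / 2 - W) hM.le
    have h2 : exp (s / 2 - W) ≤ exp (-W) * Mf μ (fun x => exp ((∑ i, x i ^ 2) / 2)) p := by
      have e : exp (s / 2 - W) = exp (-W) * exp (s / 2) := by
        rw [← exp_add]; congr 1; ring
      rw [e]
      exact mul_le_mul_of_nonneg_left (exp_bar h p) (exp_pos _).le
    linarith only [h1, h2]
  have e6 := mul_le_mul_of_nonneg_left e4 hz.le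
  have e7 := mul_le_mul_of_nonneg_left e5 hz.le
  rw [Zf_eq_mul h (fun x => (∑ i, x i ^ 2) * g x), Zf_eq_mul h g,
    Zf_eq_mul h (fun x => exp ((∑ i, x i ^ 2) / 2))]
  linarith only [e6, e7]

/-- the differentiated bound, dimension-free -/
lemma J_w (h : CSupp μ R) {W : ℝ} (hW : ExpW μ W)
    {g : (Fin n → ℝ) → ℝ} (hg : Adm μ g) {ε : ℝ} (hε : 0 < ε)
    (hgε : ∀ᵐ x ∂μ, ε ≤ g x) (hg1 : ∫ x, g x ∂μ = 1) (r : ℝ) :
    ∫ z, Zo μ (r ^ 2, r • z) *
      ((Mf μ g (r ^ 2, r • z))⁻¹ * ∑ i, dI i (Mf μ g) (r ^ 2, r • z) ^ 2) ∂(gsn n)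
    ≤ 8 * (∫ x, g x * log (g x) ∂μ + W) := by
  have hM0 : ∀ p, 0 < Mf μ g p := fun p => hε.trans_le (Mf_ge h hg hgε p)
  have hsg : Adm μ fun x => (∑ i, x i ^ 2) * g x := h.adm_sq.mul hg
  have hE := adm_E (μ := μ) h
  set q := ∫ x, g x * log (g x) ∂μ with hq
  have c0 := cpath (n := n) r
  have cZo : Continuous fun z : Fin n → ℝ => Zo μ (r ^ 2, r • z) :=
    (cont_Zf h (Adm.const μ 1)).comp c0
  have gZo : EG1 fun z : Fin n → ℝ => Zo μ (r ^ 2, r • z) := eg1_Zf h (Adm.const μ 1) r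
  have hB := B2_Mf h hg (r ^ 2)
  have hinv : Bd (r ^ 2) fun p => (Mf μ g p)⁻¹ := by
    refine ⟨ε⁻¹, by positivity, fun p _ _ => ?_⟩
    rw [abs_of_pos (inv_pos.2 (hM0 p))]
    exact inv_anti₀ hε (Mf_ge h hg hgε p)
  have cdI : ∀ i, Continuous (dI i (Mf μ g)) := fun i => (diff_dI hB.cd i).continuous
  have hint : Integrable (fun z : Fin n → ℝ => Zo μ (r ^ 2, r • z) *
      ((Mf μ g (r ^ 2, r • z))⁻¹ * ∑ i, dI i (Mf μ g) (r ^ 2, r • z) ^ 2)) (gsn n) := by
    apply EG1.int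
    · refine gZo.mul ((eg1_of_Bd hinv).mul (EG1.sum _ fun i _ => ?_))
      simpa [sq] using (eg1_of_Bd (hB.bd2 i)).mul (eg1_of_Bd (hB.bd2 i))
    · refine cZo.mul (Continuous.mul ?_ ?_)
      · exact ((cont_Mf h hg).comp c0).inv₀ fun z => (hM0 _).ne'
      · exact continuous_finsetSum _ fun i _ => ((cdI i).comp c0).pow 2
  have I1 : Integrable (fun z : Fin n → ℝ => Zf μ (fun x => (∑ i, x i ^ 2) * g x) (r ^ 2, r • z))
      (gsn n) := (eg1_Zf h hsg r).int ((cont_Zf h hsg).comp c0)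
  have I2 : Integrable (fun z : Fin n → ℝ => Zf μ g (r ^ 2, r • z)) (gsn n) :=
    (eg1_Zf h hg r).int ((cont_Zf h hg).comp c0)
  have hBl := B2_MlogM h hg hε hgε (r ^ 2)
  have I3 : Integrable (fun z : Fin n → ℝ => Zo μ (r ^ 2, r • z) *
      (Mf μ g (r ^ 2, r • z) * log (Mf μ g (r ^ 2, r • z)))) (gsn n) :=
    (gZo.mul (eg1_of_Bd hBl.bd0)).int (cZo.mul (hBl.cd.continuous.comp c0))
  have I4 : Integrable (fun z : Fin n → ℝ =>
      Zf μ (fun x => exp ((∑ i, x i ^ 2) / 2)) (r ^ 2, r • z)) (gsn n) :=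
    (eg1_Zf h hE r).int ((cont_Zf h hE).comp c0)
  have J1 := I1.const_mul 2
  have J2 := I2.const_mul (4 * (W - 1))
  have J3 := I3.const_mul 4
  have J4 := I4.const_mul (4 * exp (-W))
  have key := integral_mono hint (int_add (int_add (int_add J1 J2) J3) J4)
    (fun z => post_pw h hg hε hgε W (r ^ 2, r • z))
  refine key.trans ?_
  rw [integral_add (int_add (int_add J1 J2) J3) J4, integral_add (int_add J1 J2) J3,
    integral_add J1 J2, integral_const_mul, integral_const_mul, integral_const_mul,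
    integral_const_mul, tower_one h hsg, tower_one h hg, tower_one h hE, hg1]
  have e1 := eC_le h hg hε hgε r
  have e2 := G2_w h hW hg hε hgε hg1
  have e3 : exp (-W) * ∫ x, exp ((∑ i, x i ^ 2) / 2) ∂μ ≤ 1 := by
    have := mul_le_mul_of_nonneg_left hW (exp_pos (-W)).le
    rwa [← exp_add, neg_add_cancel, exp_zero] at this
  unfold eC at e1
  rw [← hq] at e1 e2
  linarith only [e1, e2, e3]

/-- the entropy bound -/
lemma eC_w (h : CSupp μ R) {W : ℝ} (hW : ExpW μ W)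
    {g : (Fin n → ℝ) → ℝ} (hg : Adm μ g) {ε : ℝ} (hε : 0 < ε)
    (hgε : ∀ᵐ x ∂μ, ε ≤ g x) (hg1 : ∫ x, g x ∂μ = 1) {ρ : ℝ} (hρ : 0 ≤ ρ) :
    eC μ g ρ ≤ 4 * ρ ^ 2 * (∫ x, g x * log (g x) ∂μ + W) := by
  set q := ∫ x, g x * log (g x) ∂μ with hq
  set ψ : ℝ → ℝ := fun r => 4 * r ^ 2 * (q + W) - eC μ g r with hψ
  have hder : ∀ r : ℝ, HasDerivAt ψ (8 * r * (q + W) - r * ∫ z, Zo μ (r ^ 2, r • z) *
      ((Mf μ g (r ^ 2, r • z))⁻¹ * ∑ i, dI i (Mf μ g) (r ^ 2, r • z) ^ 2) ∂(gsn n)) r := by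
    intro r
    have d1 : HasDerivAt (fun r : ℝ => 4 * r ^ 2 * (q + W)) (8 * r * (q + W)) r := by
      have := ((hasDerivAt_pow 2 r).const_mul (4 : ℝ)).mul_const (q + W)
      refine this.congr_deriv ?_
      simp only [Nat.cast_ofNat, Nat.add_one_sub_one, pow_one]; ring
    exact d1.sub (eC_deriv h hg hε hgε r)
  have hmono : MonotoneOn ψ (Set.Ici 0) := by
    apply monotoneOn_of_deriv_nonneg (convex_Ici 0)
    · exact fun r _ => (hder r).continuousAt.continuousWithinAt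
    · exact fun r _ => (hder r).differentiableAt.differentiableWithinAt
    · intro r hr
      rw [interior_Ici] at hr
      rw [(hder r).deriv]
      have hJ := J_w h hW hg hε hgε hg1 r
      have := mul_le_mul_of_nonneg_left hJ (le_of_lt hr)
      linarith only [this]
  have h0 : ψ 0 = 0 := by
    simp only [hψ]
    rw [eC_zero hg1]; ring
  have := hmono (Set.mem_Ici.2 le_rfl) (Set.mem_Ici.2 hρ) hρ
  rw [h0] at this
  simp only [hψ] at this
  linarith only [this]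

/-- a dimension-free defective inequality -/
lemma defective_w (h : CSupp μ R) {W : ℝ} (hW0 : 0 ≤ W) (hW : ExpW μ W)
    {F : (Fin n → ℝ) → ℝ} (hF : Adm μ F) {ε : ℝ} (hε : 0 < ε) (hFε : ∀ x, ε ≤ F x)
    {E : (Fin n → ℝ) → ℝ} (hE : Adm μ E) (hE0 : ∀ x, 0 ≤ E x)
    (hLSI : ∀ p : ℝ × (Fin n → ℝ), 0 < p.1 →
      Zf μ (fun x => F x ^ 2 * log (F x ^ 2)) p
        - Zf μ (fun x => F x ^ 2) p * log (Mf μ (fun x => F x ^ 2) p) ≤ 2 / p.1 * Zf μ E p) :
    ent μ (fun x => F x ^ 2) ≤ 44 * ∫ x, E x ∂μ + W * ∫ x, F x ^ 2 ∂μ := by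
  have hF2 : Adm μ fun x => F x ^ 2 := by simpa [sq] using hF.mul hF
  set m := ∫ x, F x ^ 2 ∂μ with hm
  have hε2 : 0 < ε ^ 2 := by positivity
  have hF2ε : ∀ x, ε ^ 2 ≤ F x ^ 2 := fun x => pow_le_pow_left₀ hε.le (hFε x) 2
  have hmε : ε ^ 2 ≤ m := by
    have := integral_mono (integrable_const (ε ^ 2)) hF2.integrable hF2ε
    simpa only [ge_iff_le, integral_const, probReal_univ, smul_eq_mul, one_mul] using this
  have hm0 : 0 < m := hε2.trans_le hmε
  set g : (Fin n → ℝ) → ℝ := fun x => m⁻¹ * F x ^ 2 with hg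
  have hgA : Adm μ g := hF2.const_mul _
  have hεg : 0 < m⁻¹ * ε ^ 2 := by (clear * - hm0 hε; positivity)
  have hgε' : ∀ x, m⁻¹ * ε ^ 2 ≤ g x := fun x =>
    mul_le_mul_of_nonneg_left (hF2ε x) (by positivity)
  have hgε : ∀ᵐ x ∂μ, m⁻¹ * ε ^ 2 ≤ g x := Filter.Eventually.of_forall hgε'
  have hg1 : ∫ x, g x ∂μ = 1 := by
    simp only [hg]; rw [integral_const_mul, ← hm, inv_mul_cancel₀ hm0.ne']
  have hl := hgA.log hεg hgε
  have hglg : Adm μ fun x => g x * log (g x) := hgA.mul hl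
  have hlF : Adm μ fun x => log (F x ^ 2) := hF2.log hε2 (Filter.Eventually.of_forall hF2ε)
  have hFlF : Adm μ fun x => F x ^ 2 * log (F x ^ 2) := hF2.mul hlF
  set q := ∫ x, g x * log (g x) ∂μ with hq
  have hglgx : ∀ x, g x * log (g x) = m⁻¹ * (F x ^ 2 * log (F x ^ 2)) + (-(m⁻¹ * log m)) * F x ^ 2 := by
    intro x
    have hx : 0 < F x ^ 2 := hε2.trans_le (hF2ε x)
    simp only [hg]
    rw [log_mul (by (clear * - hm0; positivity)) hx.ne', log_inv]; ring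
  have hqe : q = m⁻¹ * ent μ (fun x => F x ^ 2) := by
    rw [hq]
    simp_rw [hglgx]
    rw [integral_add (hFlF.const_mul _).integrable (hF2.const_mul _).integrable,
      integral_const_mul, integral_const_mul, ← hm, ent, ← hm]
    ring
  -- the time `1/16`
  set t : ℝ := 1 / 16 with ht
  have ht0 : 0 < t := by norm_num [ht]
  set r : ℝ := 1 / 4 with hr
  have hr2 : r ^ 2 = t := by norm_num [hr, ht]
  have hr0 : 0 ≤ r := by norm_num [hr]
  have hM0 : ∀ p, 0 < Mf μ g p := fun p => hεg.trans_le (Mf_ge h hgA hgε p)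
  have c0 := cpath (n := n) r
  have hpt : ∀ z : Fin n → ℝ, Zf μ (fun x => g x * log (g x)) (r ^ 2, r • z)
      - Zo μ (r ^ 2, r • z) * (Mf μ g (r ^ 2, r • z) * log (Mf μ g (r ^ 2, r • z)))
      ≤ 2 / t * m⁻¹ * Zf μ E (r ^ 2, r • z) := by
    intro z
    set p : ℝ × (Fin n → ℝ) := (r ^ 2, r • z) with hp
    have hp1 : p.1 = t := by rw [hp]; exact hr2
    have h1 := hLSI p (by rw [hp1]; exact ht0)
    rw [hp1] at h1
    have e1 : Zf μ (fun x => g x * log (g x)) p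
        = m⁻¹ * Zf μ (fun x => F x ^ 2 * log (F x ^ 2)) p
          + (-(m⁻¹ * log m)) * Zf μ (fun x => F x ^ 2) p := by
      rw [Zf_congr hglgx, Zf_add h (hFlF.const_mul _) (hF2.const_mul _), Zf_const_mul, Zf_const_mul]
    have e2 : Zo μ p * (Mf μ g p * log (Mf μ g p)) = Zf μ g p * log (Mf μ g p) := by
      rw [Zf_eq_mul h g]; ring
    have hMF : 0 < Mf μ (fun x => F x ^ 2) p :=
      hε2.trans_le (Mf_ge h hF2 (Filter.Eventually.of_forall hF2ε) p)
    have e3 : log (Mf μ g p) = -log m + log (Mf μ (fun x => F x ^ 2) p) := by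
      have : Mf μ g p = m⁻¹ * Mf μ (fun x => F x ^ 2) p := Mf_const_mul _ _ _
      rw [this, log_mul (by (clear * - hm0; positivity)) hMF.ne', log_inv]
    have e4 : Zf μ g p = m⁻¹ * Zf μ (fun x => F x ^ 2) p := Zf_const_mul _ _ _
    rw [e1, e2, e3, e4]
    have h2 := mul_le_mul_of_nonneg_left h1 (inv_pos.2 hm0).le
    calc m⁻¹ * Zf μ (fun x => F x ^ 2 * log (F x ^ 2)) p
          + (-(m⁻¹ * log m)) * Zf μ (fun x => F x ^ 2) p
          - m⁻¹ * Zf μ (fun x => F x ^ 2) p * (-log m + log (Mf μ (fun x => F x ^ 2) p))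
        = m⁻¹ * (Zf μ (fun x => F x ^ 2 * log (F x ^ 2)) p
          - Zf μ (fun x => F x ^ 2) p * log (Mf μ (fun x => F x ^ 2) p)) := by ring
      _ ≤ m⁻¹ * (2 / t * Zf μ E p) := h2
      _ = 2 / t * m⁻¹ * Zf μ E p := by ring
  have I1 : Integrable (fun z : Fin n → ℝ => Zf μ (fun x => g x * log (g x)) (r ^ 2, r • z))
      (gsn n) := (eg1_Zf h hglg r).int ((cont_Zf h hglg).comp c0)
  have hBl := B2_MlogM h hgA hεg hgε (r ^ 2)
  have I4 : Integrable (fun z : Fin n → ℝ => Zo μ (r ^ 2, r • z) *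
      (Mf μ g (r ^ 2, r • z) * log (Mf μ g (r ^ 2, r • z)))) (gsn n) :=
    ((eg1_Zf h (Adm.const μ 1) r).mul (eg1_of_Bd hBl.bd0)).int
      (((cont_Zf h (Adm.const μ 1)).comp c0).mul (hBl.cd.continuous.comp c0))
  have I5 : Integrable (fun z : Fin n → ℝ => 2 / t * m⁻¹ * Zf μ E (r ^ 2, r • z)) (gsn n) :=
    ((eg1_Zf h hE r).int ((cont_Zf h hE).comp c0)).const_mul _
  have key := integral_mono (I1.sub' I4) I5 hpt
  rw [integral_sub I1 I4, integral_const_mul, tower_one h hglg, tower_one h hE] at key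
  have keyB := eC_w h hW hgA hεg hgε hg1 hr0
  rw [hr2] at keyB
  have hkey : q ≤ eC μ g r + 2 / t * (m⁻¹ * ∫ x, E x ∂μ) := by
    have : eC μ g r = ∫ z, Zo μ (r ^ 2, r • z) *
      (Mf μ g (r ^ 2, r • z) * log (Mf μ g (r ^ 2, r • z))) ∂(gsn n) := rfl
    rw [this]; linarith only [key]
  have hIE : 0 ≤ ∫ x, E x ∂μ := integral_nonneg hE0
  have hB : 0 ≤ m⁻¹ * ∫ x, E x ∂μ := by (clear * - hm0 hIE; positivity)
  have halg : q ≤ 44 * (m⁻¹ * ∫ x, E x ∂μ) + W := by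
    rw [ht] at hkey keyB
    linarith only [hkey, keyB, hB, hW0]
  rw [hqe] at halg
  have h3 := mul_le_mul_of_nonneg_left halg hm0.le
  rw [← mul_assoc, mul_inv_cancel₀ hm0.ne', one_mul] at h3
  have h4 : m * (44 * (m⁻¹ * ∫ x, E x ∂μ) + W) = 44 * (∫ x, E x ∂μ) + W * m := by
    (clear * - hm0; field_simp)
  rw [h4] at h3
  exact h3

/-- **Base case**: the dimension-free defective inequality at a bounded level -/
theorem base_w {n : ℕ} {ρ : (Fin n → ℝ) → ℝ} {R W : ℝ} (hρ : LCd ρ)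
    (hprob : IsProbabilityMeasure (mu ρ)) (h : CSupp (mu ρ) R) (hW0 : 0 ≤ W)
    (hW : ExpW (mu ρ) W) : DB (mu ρ) 11 W := by
  intro f hf h1
  obtain ⟨ε, hε, hfε⟩ := hf.lb
  have hfpos : ∀ x, 0 < f x := fun x => hε.trans_le (hfε x)
  have hfd : Differentiable ℝ f := hf.cd.differentiable (by norm_num)
  have hF2 : ∀ x, √(f x) ^ 2 = f x := fun x => sq_sqrt (hfpos x).le
  have hFc : ContDiff ℝ 2 fun x => √(f x) := hf.cd.sqrt fun x => (hfpos x).ne'
  have hFε : ∀ x, √ε ≤ √(f x) := fun x => sqrt_le_sqrt (hfε x)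
  have hEA : Adm (mu ρ) fun x => ∑ i, pd (fun x => √(f x)) i x ^ 2 := adm_pd h hFc
  have hd := defective_w h hW0 hW (Adm.of_continuous h hFc.continuous) (sqrt_pos.2 hε) hFε
    hEA (fun x => Finset.sum_nonneg fun i _ => sq_nonneg _)
    (fun p hp => lsi_post_gen hρ h hFc p hp)
  simp_rw [hF2, sum_pd_sqrt hfd hfpos] at hd
  rw [top_EY_zero] at h1
  rw [integral_const_mul, ent, h1, log_one] at hd
  unfold HE FI
  rw [top_EY_zero, top_EY_zero]
  have hI : 0 ≤ ∫ x, (∑ i, pd f i x ^ 2) / f x ∂(mu ρ) :=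
    integral_nonneg fun x => div_nonneg (Finset.sum_nonneg fun i _ => sq_nonneg _) (hfpos x).le
  linarith only [hI, hd]

end Vale.Agent.P245.N
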