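import Vale.Agent.P245.N.Fin

/-! # P245: effective dimension, supplementary facts -/

open MeasureTheory Real Set Filter Topology
open scoped ENNReal ContDiff

namespace Vale.Agent.P245.N

open LS E1

variable {n : ℕ}

/-- in dimension `n` the exponential moment of the norm is at most `e^{2n}` -/
theorem lintegral_norm_le (hn : 1 ≤ n) {μ : Measure (EuclideanSpace ℝ (Fin n))}
    [IsProbabilityMeasure μ] (hlc : HasLogConcaveDensity μ) {a : ℝ} (ha : 0 < a)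
    (hsub : LinearlySubgaussian μ a) :
    ∫⁻ x, ENNReal.ofReal (exp (‖x‖ ^ 2 / (2 * a ^ 2))) ∂μ ≤ ENNReal.ofReal (exp (2 * n)) := by
  obtain ⟨ρ, hρ, hprob, hmap⟩ := exists_LCd hlc ha
  have hexp : ∀ h : Fin n → ℝ, ∫⁻ x, ENNReal.ofReal (Real.exp (∑ i, h i * x i)) ∂(mu ρ)
      ≤ 2 * ENNReal.ofReal (Real.exp ((∑ i, h i ^ 2) / 4)) := by
    intro h
    rw [← hmap]
    exact exp_moment_scE ha hsub h
  rw [← lintegral_norm_scE ha, hmap]
  have hev : ∀ᶠ k : ℕ in atTop, 2 / 3 < (mu ρ).real (cube n k) :=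
    (tendsto_real_cube (ρ := ρ)).eventually (lt_mem_nhds (by norm_num))
  -- bound on each cube
  have key : ∀ k : ℕ, 2 / 3 < (mu ρ).real (cube n (k : ℝ)) →
      ∫⁻ x in cube n (k : ℝ), ENNReal.ofReal (exp ((∑ i, x i ^ 2) / 2)) ∂(mu ρ)
        ≤ ENNReal.ofReal (exp (2 * n)) := by
    intro k hk
    have hk0 : 0 < (mu ρ).real (cube n (k : ℝ)) := by linarith only [hk]
    have hp := isProb_muT hρ hk0
    have hcs := csupp_muT hρ (Nat.cast_nonneg k) hk0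
    have hM := expM_muT hρ (Nat.cast_nonneg k) hk.le hexp
    have h1 := expW_n (μ := muT ρ k) hcs hM hn
    unfold ExpW at h1
    have h2 : ∫⁻ x, ENNReal.ofReal (exp ((∑ i, x i ^ 2) / 2)) ∂(muT ρ k)
        ≤ ENNReal.ofReal (exp (2 * n)) := by
      rw [← ofReal_integral_eq_lintegral_ofReal (adm_E hcs).integrable
        (Eventually.of_forall fun x => (exp_pos _).le)]
      exact ENNReal.ofReal_le_ofReal h1
    rw [muT_eq hρ hk0, lintegral_smul_measure, smul_eq_mul] at h2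
    refine le_trans ?_ h2
    have h3 : (1 : ℝ≥0∞) ≤ ENNReal.ofReal ((mu ρ).real (cube n (k : ℝ)))⁻¹ := by
      rw [← ENNReal.ofReal_one]
      apply ENNReal.ofReal_le_ofReal
      rw [one_le_inv₀ hk0]
      exact measureReal_le_one
    calc _ = 1 * ∫⁻ x in cube n (k : ℝ), ENNReal.ofReal (exp ((∑ i, x i ^ 2) / 2)) ∂(mu ρ) := by
          rw [one_mul]
      _ ≤ _ := mul_le_mul' h3 le_rfl
  have hmono : Monotone fun k : ℕ => cube n (k : ℝ) := monotone_cube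
  have hlim : Tendsto (fun k : ℕ => ∫⁻ x in cube n (k : ℝ),
      ENNReal.ofReal (exp ((∑ i, x i ^ 2) / 2)) ∂(mu ρ)) atTop
      (𝓝 (∫⁻ x, ENNReal.ofReal (exp ((∑ i, x i ^ 2) / 2)) ∂(mu ρ))) := by
    have h1 : ∀ k : ℕ, ∫⁻ x in cube n (k : ℝ), ENNReal.ofReal (exp ((∑ i, x i ^ 2) / 2)) ∂(mu ρ)
        = ∫⁻ x, (cube n (k : ℝ)).indicator
          (fun x => ENNReal.ofReal (exp ((∑ i, x i ^ 2) / 2))) x ∂(mu ρ) := fun k => by
      rw [lintegral_indicator (measurableSet_cube n _)]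
    simp_rw [h1]
    have hmeas : Measurable fun x : Fin n → ℝ => ENNReal.ofReal (exp ((∑ i, x i ^ 2) / 2)) := by
      fun_prop
    apply lintegral_tendsto_of_tendsto_of_monotone
    · exact fun k => (hmeas.indicator (measurableSet_cube n _)).aemeasurable
    · refine Eventually.of_forall fun x k l hkl => ?_
      exact indicator_le_indicator_of_subset (hmono hkl) (fun _ => zero_le) x
    · refine Eventually.of_forall fun x => ?_
      have hx : x ∈ ⋃ k : ℕ, cube n (k : ℝ) := by rw [iUnion_cube]; exact mem_univ _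
      obtain ⟨k, hk⟩ := mem_iUnion.1 hx
      apply tendsto_const_nhds.congr'
      filter_upwards [eventually_ge_atTop k] with l hl
      rw [indicator_of_mem (hmono hl hk)]
  exact le_of_tendsto hlim (hev.mono fun k hk => key k hk)

/-- a measure supported in a ball -/
theorem lintegral_norm_ball {μ : Measure (EuclideanSpace ℝ (Fin n))}
    [IsProbabilityMeasure μ] {a R : ℝ} (ha : 0 < a) (hR : ∀ᵐ x ∂μ, ‖x‖ ≤ R * a) :
    ∫⁻ x, ENNReal.ofReal (exp (‖x‖ ^ 2 / (2 * a ^ 2))) ∂μ ≤ ENNReal.ofReal (exp (R ^ 2 / 2)) := by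
  calc ∫⁻ x, ENNReal.ofReal (exp (‖x‖ ^ 2 / (2 * a ^ 2))) ∂μ
      ≤ ∫⁻ _, ENNReal.ofReal (exp (R ^ 2 / 2)) ∂μ := by
        apply lintegral_mono_ae
        filter_upwards [hR] with x hx
        apply ENNReal.ofReal_le_ofReal
        apply exp_le_exp.2
        rw [div_le_div_iff₀ (by positivity) (by norm_num)]
        have h1 : ‖x‖ ^ 2 ≤ (R * a) ^ 2 := pow_le_pow_left₀ (norm_nonneg _) hx 2
        nlinarith only [h1]
    _ = _ := by simp

/-- **Effective dimension**: all forms -/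
theorem effectiveDimension_all : ∃ C : ℝ, 0 < C ∧ ∀ (n : ℕ), 1 ≤ n →
    ∀ (μ : Measure (EuclideanSpace ℝ (Fin n))) [IsProbabilityMeasure μ], HasLogConcaveDensity μ →
    ∀ a : ℝ, 0 < a → LinearlySubgaussian μ a →
    (∀ W : ℝ, 1 ≤ W →
      ∫⁻ x, ENNReal.ofReal (exp (‖x‖ ^ 2 / (2 * a ^ 2))) ∂μ ≤ ENNReal.ofReal (exp W) →
      ∀ f : EuclideanSpace ℝ (Fin n) → ℝ, ContDiff ℝ ∞ f → HasCompactSupport f →
        (∀ k : ℝ, 1 ≤ k → Entropy μ (fun x => f x ^ 2) ≤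
          C * k * a ^ 2 * ∫ x, ‖gradient f x‖ ^ 2 ∂μ + W * exp (-k) * ∫ x, f x ^ 2 ∂μ) ∧
        Entropy μ (fun x => f x ^ 2) ≤
          C * (1 + log W) * a ^ 2 * ∫ x, ‖gradient f x‖ ^ 2 ∂μ) ∧
    (∀ R : ℝ, 1 ≤ R → (∀ᵐ x ∂μ, ‖x‖ ≤ R * a) →
      ∀ f : EuclideanSpace ℝ (Fin n) → ℝ, ContDiff ℝ ∞ f → HasCompactSupport f →
        Entropy μ (fun x => f x ^ 2) ≤
          C * (1 + log R) * a ^ 2 * ∫ x, ‖gradient f x‖ ^ 2 ∂μ) ∧
    ∫⁻ x, ENNReal.ofReal (exp (‖x‖ ^ 2 / (2 * a ^ 2))) ∂μ ≤ ENNReal.ofReal (exp (2 * n)) := by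
  obtain ⟨C0, hC0, h⟩ := effectiveDimension
  refine ⟨2 * C0, by positivity, ?_⟩
  intro n hn μ _ hlc a ha hsub
  have hI : ∀ f : EuclideanSpace ℝ (Fin n) → ℝ, 0 ≤ ∫ x, ‖gradient f x‖ ^ 2 ∂μ :=
    fun f => integral_nonneg fun x => sq_nonneg _
  refine ⟨fun W hW1 hW f hf hs => ?_, fun R hR1 hR f hf hs => ?_,
    lintegral_norm_le hn hlc ha hsub⟩
  · obtain ⟨h1, h2⟩ := h n hn μ hlc a ha hsub W hW1 hW f hf hs
    have hI := hI f
    refine ⟨fun k hk => (h1 k hk).trans ?_, h2.trans ?_⟩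
    · have : 0 ≤ C0 * k * a ^ 2 * ∫ x, ‖gradient f x‖ ^ 2 ∂μ := by
        have hk0 : 0 ≤ k := by linarith only [hk]
        positivity
      linarith only [this]
    · have hl : 0 ≤ log W := Real.log_nonneg hW1
      have : 0 ≤ C0 * (1 + log W) * a ^ 2 * ∫ x, ‖gradient f x‖ ^ 2 ∂μ := by positivity
      linarith only [this]
  · have hI := hI f
    have hR2 : 1 ≤ R ^ 2 := one_le_pow₀ hR1
    obtain ⟨-, h2⟩ := h n hn μ hlc a ha hsub (R ^ 2) hR2
      ((lintegral_norm_ball ha hR).trans (ENNReal.ofReal_le_ofReal (exp_le_exp.2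
        (by linarith only [hR2])))) f hf hs
    have hl : 0 ≤ log R := Real.log_nonneg hR1
    rw [Real.log_pow] at h2
    push_cast at h2
    refine h2.trans ?_
    have : 0 ≤ C0 * a ^ 2 * ∫ x, ‖gradient f x‖ ^ 2 ∂μ := by positivity
    linarith only [this]

end Vale.Agent.P245.N
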