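import Vale.Agent.P245.N.Scale
import Vale.Agent.P245.N.Base

/-! # P245: the final statements, all entropies and effective dimension -/

open MeasureTheory Real Set Filter Topology
open scoped ENNReal ContDiff

namespace Vale.Agent.P245.N

open LS E1

variable {n : ℕ} {ρ : (Fin n → ℝ) → ℝ}

lemma DL_mono {μ : Measure (Fin n → ℝ)} {C C' D D' : ℝ} (h : DL μ C D) (hC : C ≤ C')
    (hD : D ≤ D') : DL μ C' D' := by
  intro g hg
  have h1 := h g hg
  have h2 : 0 ≤ ∑ i, ∫ x, pd g i x ^ 2 ∂μ :=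
    Finset.sum_nonneg fun i _ => integral_nonneg fun x => sq_nonneg _
  have h3 : 0 ≤ ∫ x, g x ^ 2 ∂μ := integral_nonneg fun x => sq_nonneg _
  have h4 := mul_le_mul_of_nonneg_right hC h2
  have h5 := mul_le_mul_of_nonneg_right hD h3
  linarith only [h1, h4, h5]

/-- Removing the compact support assumption by truncation. -/
theorem dl_of_trunc_D (hρ : LCd ρ) [IsProbabilityMeasure (mu ρ)] {K D : ℝ}
    (h : ∀ᶠ k : ℕ in atTop, DL (muT ρ k) K D) : DL (mu ρ) K D := by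
  intro g hg
  obtain ⟨hg2, R, c, hc⟩ := hg
  have hg1 : ContDiff ℝ 1 g := hg2.of_le (by norm_num)
  have hgm : Measurable fun x => g x ^ 2 := hg2.continuous.measurable.pow_const 2
  obtain ⟨M, hM⟩ := bdd_of_const_outside hg2.continuous hc
  have hM2 : ∀ x, g x ^ 2 ≤ M ^ 2 := fun x => by
    rw [← sq_abs]; exact pow_le_pow_left₀ (abs_nonneg _) (hM x) 2
  have hP : ∀ i, ∃ P, ∀ x, |pd g i x| ≤ P := fun i =>
    bdd_of_const_outside (continuous_pd hg1 i) (pd_const_outside hc i)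
  choose P hP using hP
  have hpdi : ∀ i, Integrable (fun x => pd g i x ^ 2) (mu ρ) := fun i =>
    integrable_of_bdd _ ((continuous_pd hg1 i).measurable.pow_const 2) (K := P i ^ 2) fun x => by
      rw [abs_of_nonneg (sq_nonneg _), ← sq_abs]; exact pow_le_pow_left₀ (abs_nonneg _) (hP i x) 2
  have hlim1 := tendsto_integral_muT hρ (φ := fun x => g x ^ 2 * log (g x ^ 2))
    (integrable_mul_log (mu ρ) hgm (fun x => sq_nonneg _) hM2)
  have hlim2 := tendsto_integral_muT hρ (φ := fun x => g x ^ 2)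
    (integrable_of_bdd _ hgm (K := M ^ 2) fun x => by
      rw [abs_of_nonneg (sq_nonneg _)]; exact hM2 x)
  have hlim3 : Tendsto (fun k : ℕ => ∑ i, ∫ x, pd g i x ^ 2 ∂(muT ρ k)) atTop
      (𝓝 (∑ i, ∫ x, pd g i x ^ 2 ∂(mu ρ))) :=
    tendsto_finsetSum _ fun i _ => tendsto_integral_muT hρ (hpdi i)
  have hlimE : Tendsto (fun k : ℕ => ent (muT ρ k) (fun x => g x ^ 2)) atTop
      (𝓝 (ent (mu ρ) fun x => g x ^ 2)) := by
    unfold ent
    exact hlim1.sub (continuous_mul_log.tendsto _ |>.comp hlim2)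
  have hlimR := (hlim3.const_mul K).add (hlim2.const_mul D)
  refine le_of_tendsto_of_tendsto hlimE hlimR ?_
  filter_upwards [h] with k hk using hk g ⟨hg2, R, c, hc⟩

/-- the exponential moment of the truncated measures -/
theorem expW_muT (hρ : LCd ρ) [IsProbabilityMeasure (mu ρ)] {L W : ℝ} (hL : 0 ≤ L)
    (hm : 2 / 3 ≤ (mu ρ).real (cube n L))
    (hW : ∫⁻ x, ENNReal.ofReal (exp ((∑ i, x i ^ 2) / 2)) ∂(mu ρ) ≤ ENNReal.ofReal (exp W)) :
    ExpW (muT ρ L) (W + 1 / 2) := by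
  have hm0 : 0 < (mu ρ).real (cube n L) := by linarith only [hm]
  have := isProb_muT hρ hm0
  have hc := csupp_muT hρ hL hm0
  have hV := adm_E (μ := muT ρ L) hc
  have h12 : (3 : ℝ) / 2 ≤ exp (1 / 2) := by
    have := Real.add_one_le_exp (1 / 2 : ℝ)
    linarith only [this]
  have h1 : ∫⁻ x, ENNReal.ofReal (exp ((∑ i, x i ^ 2) / 2)) ∂(muT ρ L)
      ≤ ENNReal.ofReal (exp (W + 1 / 2)) := by
    rw [muT_eq hρ hm0, lintegral_smul_measure]
    have h2 : ∫⁻ x in cube n L, ENNReal.ofReal (exp ((∑ i, x i ^ 2) / 2)) ∂(mu ρ)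
        ≤ ENNReal.ofReal (exp W) :=
      (setLIntegral_le_lintegral _ _).trans hW
    have h3 : ((mu ρ).real (cube n L))⁻¹ ≤ exp (1 / 2) := by
      refine le_trans ?_ h12
      rw [inv_le_comm₀ hm0 (by norm_num)]; linarith only [hm]
    calc ENNReal.ofReal ((mu ρ).real (cube n L))⁻¹ •
          ∫⁻ x in cube n L, ENNReal.ofReal (exp ((∑ i, x i ^ 2) / 2)) ∂(mu ρ)
        ≤ ENNReal.ofReal (exp (1 / 2)) * ENNReal.ofReal (exp W) := by
          rw [smul_eq_mul]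
          exact mul_le_mul' (ENNReal.ofReal_le_ofReal h3) h2
      _ = ENNReal.ofReal (exp (W + 1 / 2)) := by
          rw [← ENNReal.ofReal_mul (exp_pos _).le, ← exp_add, add_comm]
  rw [← ofReal_integral_eq_lintegral_ofReal hV.integrable
    (Eventually.of_forall fun x => (exp_pos _).le)] at h1
  exact (ENNReal.ofReal_le_ofReal_iff (by positivity)).1 h1

/-- in dimension `n` the exponential moment is at most `e^{2n}` -/
theorem expW_n {μ : Measure (Fin n → ℝ)} [IsProbabilityMeasure μ] {R : ℝ} (h : CSupp μ R)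
    (hexp : ExpM μ 3) (hn : 1 ≤ n) : ExpW μ (2 * n) := by
  have h1 := int_exp_half_sq h hexp
  refine h1.trans ?_
  have hn1 : (1 : ℝ) ≤ n := by exact_mod_cast hn
  have h2 := log_bound (n := n) 3 (by norm_num)
  have h3 : (0 : ℝ) < 3 * √2 ^ n := by positivity
  rw [← Real.log_le_iff_le_exp h3, h2]
  have := log_three_le
  have h4 := Real.log_two_lt_d9
  nlinarith only [this, h4, hn1]

/-- the constant of the iteration started from `DB μ 11 W` -/
theorem dl_all_11 : ∃ C, 0 < C ∧ ∀ (n : ℕ) (ρ : (Fin n → ℝ) → ℝ)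
      (R B k : ℝ), 1 ≤ n → LCd ρ → IsProbabilityMeasure (mu ρ) → CSupp (mu ρ) R →
      ExpM (mu ρ) 3 → 0 ≤ B → DB (mu ρ) 11 B → 1 ≤ k → DL (mu ρ) (C * k) (B * exp (-k)) := by
  have hB : ∀ n, StBoot n := fun n => boot_of n (thK n) (thR' n) (thT' n) (thCo n) (thRv n)
    (thG0' n) (thU' n) (thDn' n) (thP n) (thPathA' n)
  have hP : ∀ n, StPath n := fun n => thPath n (thPathA' n) (thR' n) (thCo n) (thU' n) (thP n)
  have hA : ∀ n, StAmp n := fun n => thAmp n (thCo n) (thRv n)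
  exact dl_all (thStep hB hP hA thCo) thLv 11 (by norm_num)

/-- **Effective dimension**, compactly supported case -/
theorem dl_W : ∃ C, 0 < C ∧ ∀ (n : ℕ) (ρ : (Fin n → ℝ) → ℝ)
      (R W : ℝ), 1 ≤ n → LCd ρ → IsProbabilityMeasure (mu ρ) → CSupp (mu ρ) R →
      ExpM (mu ρ) 3 → 0 ≤ W → ExpW (mu ρ) W →
      (∀ k, 1 ≤ k → DL (mu ρ) (C * k) (W * exp (-k))) ∧
      (∀ k, 1 ≤ k → W * exp (-k) ≤ log 2 / 2 → DL (mu ρ) (C * k) 0) := by
  obtain ⟨C0, hC0, h⟩ := dl_all_11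
  refine ⟨46 * C0, by positivity, ?_⟩
  intro n ρ R W hn hρ hprob hR hexp hW0 hW
  have hb := base_w hρ hprob hR hW0 hW
  have hk : ∀ k, 1 ≤ k → DL (mu ρ) (C0 * k) (W * exp (-k)) := fun k hk =>
    h n ρ R W k hn hρ hprob hR hexp hW0 hb hk
  refine ⟨fun k hk1 => ?_, fun k hk1 hD => ?_⟩
  · refine DL_mono (hk k hk1) ?_ le_rfl
    have : 0 ≤ C0 * k := by positivity
    linarith only [this]
  · have h1 := hk k hk1
    have h2 : DL (mu ρ) (4 * (C0 * k / 4)) (log 2 / 2) := DL_mono h1 (by linarith only []) hD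
    have h3 := thH4 n (mu ρ) (C0 * k / 4) (by positivity) h2
    exact DL_mono h3 (by linarith only []) le_rfl

/-- all log-concave measures, with an exponential moment of the norm -/
theorem dl_W_mu : ∃ C, 0 < C ∧ ∀ (n : ℕ) (ρ : (Fin n → ℝ) → ℝ) (W : ℝ), 1 ≤ n → LCd ρ →
      IsProbabilityMeasure (mu ρ) →
      (∀ h : Fin n → ℝ, ∫⁻ x, ENNReal.ofReal (exp (∑ i, h i * x i)) ∂(mu ρ)
        ≤ 2 * ENNReal.ofReal (exp ((∑ i, h i ^ 2) / 4))) → 1 ≤ W →
      ∫⁻ x, ENNReal.ofReal (exp ((∑ i, x i ^ 2) / 2)) ∂(mu ρ) ≤ ENNReal.ofReal (exp W) →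
      (∀ k, 1 ≤ k → DL (mu ρ) (C * k) (W * exp (-k))) ∧
      DL (mu ρ) (C * (1 + log W)) 0 := by
  obtain ⟨C0, hC0, h⟩ := dl_W
  refine ⟨3 * C0, by positivity, ?_⟩
  intro n ρ W hn hρ hprob hexp hW1 hW
  have hev : ∀ᶠ k : ℕ in atTop, 2 / 3 < (mu ρ).real (cube n k) :=
    (tendsto_real_cube (ρ := ρ)).eventually (lt_mem_nhds (by norm_num))
  have main : ∀ j : ℕ, 2 / 3 < (mu ρ).real (cube n (j : ℝ)) →
      (∀ k, 1 ≤ k → DL (muT ρ j) (C0 * k) ((W + 1 / 2) * exp (-k))) ∧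
      (∀ k, 1 ≤ k → (W + 1 / 2) * exp (-k) ≤ log 2 / 2 → DL (muT ρ j) (C0 * k) 0) := by
    intro j hj
    have hk0 : 0 < (mu ρ).real (cube n (j : ℝ)) := by linarith only [hj]
    exact h n (trunc ρ j ((mu ρ).real (cube n j))) j (W + 1 / 2) hn (trunc_LCd hρ hk0)
      (isProb_muT hρ hk0) (csupp_muT hρ (Nat.cast_nonneg j) hk0)
      (expM_muT hρ (Nat.cast_nonneg j) hj.le hexp) (by linarith only [hW1])
      (expW_muT hρ (Nat.cast_nonneg j) hj.le hW)
  refine ⟨fun k hk => ?_, ?_⟩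
  · apply dl_of_trunc_D hρ
    filter_upwards [hev] with j hj
    have h1 := (main j hj).1 (k + 1) (by linarith only [hk])
    refine DL_mono h1 ?_ ?_
    · have : C0 ≤ C0 * k := le_mul_of_one_le_right hC0.le hk
      linarith only [this, hC0]
    · have e : exp (-(k + 1)) = exp (-k) * exp (-1) := by rw [← exp_add]; congr 1; ring
      have h2 : exp (-1) ≤ 1 / 2 := by
        have := Real.add_one_le_exp (1 : ℝ)
        rw [exp_neg, inv_eq_one_div, div_le_div_iff₀ (exp_pos _) (by norm_num)]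
        linarith only [this]
      rw [e]
      have h3 : exp (-k) * exp (-1) ≤ exp (-k) * (1 / 2) :=
        mul_le_mul_of_nonneg_left h2 (exp_pos _).le
      have h4 := mul_le_mul_of_nonneg_left h3 (show 0 ≤ W + 1 / 2 by linarith only [hW1])
      have h5 : 0 ≤ exp (-k) * (W - 1) := mul_nonneg (exp_pos _).le (by linarith only [hW1])
      have h6 := exp_pos (-k)
      linarith only [h4, h5, h6]
  · apply dl_of_trunc_D hρ
    filter_upwards [hev] with j hj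
    have hlW : 0 ≤ log W := Real.log_nonneg hW1
    have h1 := (main j hj).2 (3 + log W) (by linarith only [hlW]) (by
      have hW0 : 0 < W := by linarith only [hW1]
      have e : exp (-(3 + log W)) = exp (-3) * (1 / W) := by
        rw [neg_add, exp_add, exp_neg (log W), exp_log hW0, one_div]
      rw [e]
      have h2 : exp (-3) ≤ 1 / 8 := by
        have h3 : exp (3 : ℝ) = exp 1 ^ 3 := by rw [← Real.exp_nat_mul]; norm_num
        have h4 : (2 : ℝ) ^ 3 ≤ exp 1 ^ 3 :=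
          pow_le_pow_left₀ (by norm_num) (by have := Real.exp_one_gt_d9; linarith only [this]) 3
        rw [exp_neg, inv_eq_one_div, div_le_div_iff₀ (exp_pos _) (by norm_num), h3]
        linarith only [h4]
      have h5 : (W + 1 / 2) * (1 / W) ≤ 3 / 2 := by
        rw [mul_one_div, div_le_iff₀ hW0]; linarith only [hW1]
      have h6 : 0 ≤ (W + 1 / 2) * (1 / W) := by positivity
      have h7 : exp (-3) * ((W + 1 / 2) * (1 / W)) ≤ 1 / 8 * (3 / 2) :=
        mul_le_mul h2 h5 h6 (by norm_num)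
      have h8 := Real.log_two_gt_d9
      linarith only [h7, h8])
    refine DL_mono h1 ?_ le_rfl
    have : 0 ≤ C0 * log W := by positivity
    linarith only [this, hC0]

/-- all log-concave measures, in terms of the dimension -/
theorem dl_n_mu : ∃ C, 0 < C ∧ ∀ (n : ℕ) (ρ : (Fin n → ℝ) → ℝ), 1 ≤ n → LCd ρ →
      IsProbabilityMeasure (mu ρ) →
      (∀ h : Fin n → ℝ, ∫⁻ x, ENNReal.ofReal (exp (∑ i, h i * x i)) ∂(mu ρ)
        ≤ 2 * ENNReal.ofReal (exp ((∑ i, h i ^ 2) / 4))) →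
      (∀ k, 1 ≤ k → DL (mu ρ) (C * k) (n * exp (-k))) ∧
      DL (mu ρ) (C * (1 + log n)) 0 := by
  obtain ⟨C0, hC0, h⟩ := dl_W
  refine ⟨3 * C0, by positivity, ?_⟩
  intro n ρ hn hρ hprob hexp
  have hn1 : (1 : ℝ) ≤ n := by exact_mod_cast hn
  have hev : ∀ᶠ k : ℕ in atTop, 2 / 3 < (mu ρ).real (cube n k) :=
    (tendsto_real_cube (ρ := ρ)).eventually (lt_mem_nhds (by norm_num))
  have main : ∀ j : ℕ, 2 / 3 < (mu ρ).real (cube n (j : ℝ)) →
      (∀ k, 1 ≤ k → DL (muT ρ j) (C0 * k) (2 * n * exp (-k))) ∧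
      (∀ k, 1 ≤ k → 2 * n * exp (-k) ≤ log 2 / 2 → DL (muT ρ j) (C0 * k) 0) := by
    intro j hj
    have hk0 : 0 < (mu ρ).real (cube n (j : ℝ)) := by linarith only [hj]
    have hp := isProb_muT hρ hk0
    have hcs := csupp_muT hρ (Nat.cast_nonneg j) hk0
    have hM := expM_muT hρ (Nat.cast_nonneg j) hj.le hexp
    exact h n (trunc ρ j ((mu ρ).real (cube n j))) j (2 * n) hn (trunc_LCd hρ hk0)
      hp hcs hM (by positivity) (expW_n (μ := muT ρ j) hcs hM hn)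
  refine ⟨fun k hk => ?_, ?_⟩
  · apply dl_of_trunc_D hρ
    filter_upwards [hev] with j hj
    have h1 := (main j hj).1 (k + 1) (by linarith only [hk])
    refine DL_mono h1 ?_ ?_
    · have : C0 ≤ C0 * k := le_mul_of_one_le_right hC0.le hk
      linarith only [this, hC0]
    · have e : exp (-(k + 1)) = exp (-k) * exp (-1) := by rw [← exp_add]; congr 1; ring
      have h2 : exp (-1) ≤ 1 / 2 := by
        have := Real.add_one_le_exp (1 : ℝ)
        rw [exp_neg, inv_eq_one_div, div_le_div_iff₀ (exp_pos _) (by norm_num)]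
        linarith only [this]
      rw [e]
      have h3 : exp (-k) * exp (-1) ≤ exp (-k) * (1 / 2) :=
        mul_le_mul_of_nonneg_left h2 (exp_pos _).le
      have h4 := mul_le_mul_of_nonneg_left h3 (show (0 : ℝ) ≤ 2 * n by linarith only [hn1])
      linarith only [h4]
  · apply dl_of_trunc_D hρ
    filter_upwards [hev] with j hj
    have hlW : 0 ≤ log (n : ℝ) := Real.log_nonneg hn1
    have h1 := (main j hj).2 (3 + log n) (by linarith only [hlW]) (by
      have hW0 : (0 : ℝ) < n := by linarith only [hn1]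
      have e : exp (-(3 + log (n : ℝ))) = exp (-3) * (1 / n) := by
        rw [neg_add, exp_add, exp_neg (log (n : ℝ)), exp_log hW0, one_div]
      rw [e]
      have h2 : exp (-3) ≤ 1 / 8 := by
        have h3 : exp (3 : ℝ) = exp 1 ^ 3 := by rw [← Real.exp_nat_mul]; norm_num
        have h4 : (2 : ℝ) ^ 3 ≤ exp 1 ^ 3 :=
          pow_le_pow_left₀ (by norm_num) (by have := Real.exp_one_gt_d9; linarith only [this]) 3
        rw [exp_neg, inv_eq_one_div, div_le_div_iff₀ (exp_pos _) (by norm_num), h3]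
        linarith only [h4]
      have e2 : 2 * (n : ℝ) * (exp (-3) * (1 / n)) = 2 * exp (-3) := by
        field_simp
      rw [e2]
      have h8 := Real.log_two_gt_d9
      linarith only [h2, h8])
    refine DL_mono h1 ?_ le_rfl
    have : 0 ≤ C0 * log n := by positivity
    linarith only [this, hC0]

/-! ### the statements on `EuclideanSpace` -/

theorem lintegral_norm_scE {μ : Measure (EuclideanSpace ℝ (Fin n))} {a : ℝ} (ha : 0 < a) :
    ∫⁻ x, ENNReal.ofReal (exp ((∑ i, x i ^ 2) / 2)) ∂(μ.map (scE n a ha.ne'))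
      = ∫⁻ x, ENNReal.ofReal (exp (‖x‖ ^ 2 / (2 * a ^ 2))) ∂μ := by
  rw [lintegral_map (by fun_prop) (MeasurableEquiv.measurable _)]
  apply lintegral_congr
  intro x
  rw [scE_apply]
  congr 2
  rw [EuclideanSpace.real_norm_sq_eq]
  simp only [Pi.smul_apply, smul_eq_mul, mul_pow]
  rw [← Finset.mul_sum]
  field_simp

theorem dl_transfer {μ : Measure (EuclideanSpace ℝ (Fin n))} {a : ℝ} (ha : 0 < a)
    [IsProbabilityMeasure (mu ρ)] (hmap : μ.map (scE n a ha.ne') = mu ρ) {K D : ℝ}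
    (h : DL (mu ρ) K D) {f : EuclideanSpace ℝ (Fin n) → ℝ} (hf : ContDiff ℝ ∞ f)
    (hs : HasCompactSupport f) :
    Entropy μ (fun x => f x ^ 2) ≤ K * a ^ 2 * ∫ x, ‖gradient f x‖ ^ 2 ∂μ + D * ∫ x, f x ^ 2 ∂μ := by
  have hf2 : ContDiff ℝ 2 f := hf.of_le (WithTop.coe_le_coe.2 le_top)
  obtain ⟨R, -, hR⟩ := rsc_const_outside ha hs
  have main := h (rsc a f) ⟨contDiff_rsc hf2, R, 0, hR⟩
  have e3 : ent (mu ρ) (fun x => rsc a f x ^ 2) = Entropy μ (fun x => f x ^ 2) := by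
    rw [entropy_rsc ha f (fun t => t ^ 2), hmap]
  have e4 : ∫ x, rsc a f x ^ 2 ∂(mu ρ) = ∫ x, f x ^ 2 ∂μ := by
    rw [← hmap, integral_rsc ha f (fun t => t ^ 2)]
  rw [e3, e4, energy_mu ha hmap hf2 hs] at main
  refine main.trans (le_of_eq ?_)
  ring

/-- **All entropies.** -/
theorem allEntropies : ∃ C : ℝ, 0 < C ∧ ∀ (n : ℕ), 1 ≤ n →
    ∀ (μ : Measure (EuclideanSpace ℝ (Fin n))) [IsProbabilityMeasure μ], HasLogConcaveDensity μ →
    ∀ a : ℝ, 0 < a → LinearlySubgaussian μ a →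
    ∀ f : EuclideanSpace ℝ (Fin n) → ℝ, ContDiff ℝ ∞ f → HasCompactSupport f →
      (∀ k : ℝ, 1 ≤ k → Entropy μ (fun x => f x ^ 2) ≤
        C * k * a ^ 2 * ∫ x, ‖gradient f x‖ ^ 2 ∂μ + n * exp (-k) * ∫ x, f x ^ 2 ∂μ) ∧
      (∀ ε : ℝ, 0 < ε → ε ≤ 1 → ε * n * ∫ x, f x ^ 2 ∂μ ≤ Entropy μ (fun x => f x ^ 2) →
        Entropy μ (fun x => f x ^ 2) ≤
          C * (1 + log (1 / ε)) * a ^ 2 * ∫ x, ‖gradient f x‖ ^ 2 ∂μ) ∧
      Entropy μ (fun x => f x ^ 2) ≤
        C * (1 + log n) * a ^ 2 * ∫ x, ‖gradient f x‖ ^ 2 ∂μ := by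
  obtain ⟨C0, hC0, h⟩ := dl_n_mu
  refine ⟨4 * C0, by positivity, ?_⟩
  intro n hn μ _ hlc a ha hsub f hf hs
  obtain ⟨ρ, hρ, hprob, hmap⟩ := exists_LCd hlc ha
  have hexp : ∀ h : Fin n → ℝ, ∫⁻ x, ENNReal.ofReal (Real.exp (∑ i, h i * x i)) ∂(mu ρ)
      ≤ 2 * ENNReal.ofReal (Real.exp ((∑ i, h i ^ 2) / 4)) := by
    intro h
    rw [← hmap]
    exact exp_moment_scE ha hsub h
  have hn1 : (1 : ℝ) ≤ n := by exact_mod_cast hn
  obtain ⟨h1, h2⟩ := h n ρ hn hρ hprob hexp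
  have hI : 0 ≤ ∫ x, ‖gradient f x‖ ^ 2 ∂μ := integral_nonneg fun x => sq_nonneg _
  have hJ : 0 ≤ ∫ x, f x ^ 2 ∂μ := integral_nonneg fun x => sq_nonneg _
  have hdef : ∀ k : ℝ, 1 ≤ k → Entropy μ (fun x => f x ^ 2) ≤
        C0 * k * a ^ 2 * ∫ x, ‖gradient f x‖ ^ 2 ∂μ + n * exp (-k) * ∫ x, f x ^ 2 ∂μ :=
    fun k hk => dl_transfer ha hmap (h1 k hk) hf hs
  refine ⟨fun k hk => ?_, fun ε hε hε1 hent => ?_, ?_⟩
  · refine (hdef k hk).trans ?_
    have : 0 ≤ C0 * k * a ^ 2 * ∫ x, ‖gradient f x‖ ^ 2 ∂μ := by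
      have hk0 : 0 ≤ k := by linarith only [hk]
      positivity
    linarith only [this]
  · have hl : 0 ≤ log (1 / ε) := Real.log_nonneg (by rw [le_div_iff₀ hε]; linarith only [hε1])
    have h3 := hdef (1 + log (1 / ε)) (by linarith only [hl])
    have e : exp (-(1 + log (1 / ε))) = exp (-1) * ε := by
      rw [neg_add, exp_add, exp_neg (log (1 / ε)), exp_log (by positivity)]
      simp
    have h2 : exp (-1) ≤ 1 / 2 := by
      have := Real.add_one_le_exp (1 : ℝ)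
      rw [exp_neg, inv_eq_one_div, div_le_div_iff₀ (exp_pos _) (by norm_num)]
      linarith only [this]
    rw [e] at h3
    have h4 : n * (exp (-1) * ε) * ∫ x, f x ^ 2 ∂μ ≤ 1 / 2 * (ε * n * ∫ x, f x ^ 2 ∂μ) := by
      have h5 : 0 ≤ ε * n * ∫ x, f x ^ 2 ∂μ := by positivity
      have h6 := mul_le_mul_of_nonneg_right h2 h5
      linarith only [h6]
    have h7 : 0 ≤ C0 * (1 + log (1 / ε)) * a ^ 2 * ∫ x, ‖gradient f x‖ ^ 2 ∂μ := by positivity
    linarith only [h3, h4, hent, h7]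
  · have h3 := dl_transfer ha hmap h2 hf hs
    have hl : 0 ≤ log (n : ℝ) := Real.log_nonneg hn1
    have h7 : 0 ≤ C0 * (1 + log n) * a ^ 2 * ∫ x, ‖gradient f x‖ ^ 2 ∂μ := by positivity
    linarith only [h3, h7]

/-- **Effective dimension.** -/
theorem effectiveDimension : ∃ C : ℝ, 0 < C ∧ ∀ (n : ℕ), 1 ≤ n →
    ∀ (μ : Measure (EuclideanSpace ℝ (Fin n))) [IsProbabilityMeasure μ], HasLogConcaveDensity μ →
    ∀ a : ℝ, 0 < a → LinearlySubgaussian μ a →
    ∀ W : ℝ, 1 ≤ W →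
      ∫⁻ x, ENNReal.ofReal (exp (‖x‖ ^ 2 / (2 * a ^ 2))) ∂μ ≤ ENNReal.ofReal (exp W) →
    ∀ f : EuclideanSpace ℝ (Fin n) → ℝ, ContDiff ℝ ∞ f → HasCompactSupport f →
      (∀ k : ℝ, 1 ≤ k → Entropy μ (fun x => f x ^ 2) ≤
        C * k * a ^ 2 * ∫ x, ‖gradient f x‖ ^ 2 ∂μ + W * exp (-k) * ∫ x, f x ^ 2 ∂μ) ∧
      Entropy μ (fun x => f x ^ 2) ≤
        C * (1 + log W) * a ^ 2 * ∫ x, ‖gradient f x‖ ^ 2 ∂μ := by
  obtain ⟨C0, hC0, h⟩ := dl_W_mu
  refine ⟨C0, hC0, ?_⟩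
  intro n hn μ _ hlc a ha hsub W hW1 hW f hf hs
  obtain ⟨ρ, hρ, hprob, hmap⟩ := exists_LCd hlc ha
  have hexp : ∀ h : Fin n → ℝ, ∫⁻ x, ENNReal.ofReal (Real.exp (∑ i, h i * x i)) ∂(mu ρ)
      ≤ 2 * ENNReal.ofReal (Real.exp ((∑ i, h i ^ 2) / 4)) := by
    intro h
    rw [← hmap]
    exact exp_moment_scE ha hsub h
  have hW' : ∫⁻ x, ENNReal.ofReal (exp ((∑ i, x i ^ 2) / 2)) ∂(mu ρ) ≤ ENNReal.ofReal (exp W) := by
    rw [← hmap, lintegral_norm_scE ha]
    exact hW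
  obtain ⟨h1, h2⟩ := h n ρ W hn hρ hprob hexp hW1 hW'
  refine ⟨fun k hk => dl_transfer ha hmap (h1 k hk) hf hs, ?_⟩
  have h3 := dl_transfer ha hmap h2 hf hs
  rw [zero_mul, add_zero] at h3
  exact h3

end Vale.Agent.P245.N
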