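import Vale.Agent.P245.Bdl.B2

/-! # P245, all entropies: the iteration without a critical level

Abstract iteration and its use at one scale: `DB μ (92 κ) (D/2)`, `¬ DB μ κ D`,
`DB μ (κ/2) D₁` give `e^{cκ} D ≤ D₁`. -/

open MeasureTheory Real Set Filter Topology
open scoped ENNReal ContDiff

namespace Vale.Agent.P245.N

open LS E1

section Abstract

variable {F : Type*} {H I : F → ℝ}

/-- Hypotheses of the abstract iteration. -/
structure GHyp (H I : F → ℝ) (B k1 κ0 C2 η : ℝ) : Prop where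
  hI : ∀ f, 0 ≤ I f
  h1 : ∀ f, H f ≤ k1 * I f + B
  hk1 : k1 ≤ κ0 / 2
  hκ0 : 0 < κ0
  hC2 : 0 < C2
  hη : 0 < η
  hlow : ∀ k, κ0 / 2 ≤ k → k ≤ 49 / 50 * κ0 → log 2 / 2 ≤ iterD H I k
  hhalf : ∀ k, κ0 / 2 ≤ k → k ≤ 49 / 50 * κ0 → ∀ f, H f ≤ 94 * κ0 * I f + iterD H I k / 2
  hstep : ∀ (k : ℝ) (f : F) (α : ℝ), κ0 / 2 + C2 ≤ k → k ≤ κ0 → 0 ≤ α → α ≤ η * I f →
    iterD H I k - α ≤ H f - k * I f → H f ≤ 2000 * k * I f → log 3 ≤ 2000 * k * I f →
    iterD H I k + 3 / 2 * C2 * I f ≤ iterD H I (k - C2)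

lemma g_gain [Nonempty F] {B k1 κ0 C2 η : ℝ} (h : GHyp H I B k1 κ0 C2 η) {k ε : ℝ}
    (hk : κ0 / 2 + C2 ≤ k) (hk' : k ≤ 49 / 50 * κ0) (hε : 0 < ε) :
    ∃ f, iterD H I k - ε ≤ H f - k * I f ∧ iterD H I k / (400 * κ0) ≤ I f ∧
      iterD H I k + 3 / 2 * C2 * I f ≤ iterD H I (k - C2) := by
  have hl2 : 0.69 < log 2 := by have := Real.log_two_gt_d9; linarith only [this]
  have hκ0 := h.hκ0
  have hC2 := h.hC2
  have hη := h.hη
  have hlow := h.hlow k (by linarith only [hk, hC2]) hk'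
  have hhalf := h.hhalf k (by linarith only [hk, hC2]) hk'
  obtain ⟨D, hD⟩ : ∃ D, D = iterD H I k := ⟨_, rfl⟩
  rw [← hD] at hlow hhalf ⊢
  have hD0 : 0 < D := by linarith only [hlow, hl2]
  have hIm : 0 < D / (400 * κ0) := by positivity
  obtain ⟨α, hα, hα1, hα2, hα3⟩ : ∃ α : ℝ, 0 < α ∧ α ≤ ε ∧ α ≤ D / 8 ∧
      α ≤ η * (D / (400 * κ0)) :=
    ⟨min ε (min (D / 8) (η * (D / (400 * κ0)))),
      lt_min hε (lt_min (by positivity) (by positivity)), min_le_left _ _,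
      (min_le_right _ _).trans (min_le_left _ _), (min_le_right _ _).trans (min_le_right _ _)⟩
  obtain ⟨f, hf⟩ := exists_lt_of_lt_ciSup (f := fun f => H f - k * I f)
    (show D - α < ⨆ f, (H f - k * I f) from by
      have : D = ⨆ f, (H f - k * I f) := hD
      rw [← this]
      linarith only [hα])
  have hIf := h.hI f
  have hhf := hhalf f
  have hk0 : 0 < k := by linarith only [hk, hC2, hκ0]
  have hkI : 0 ≤ k * I f := by (clear * - hk0 hIf; positivity)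
  have h3 : 3 / 8 * D ≤ 94 * (κ0 * I f) := by
    have e : 94 * κ0 * I f = 94 * (κ0 * I f) := by ring
    rw [e] at hhf
    linarith only [hα2, hf, hkI, hhf]
  have h4 : D / (400 * κ0) ≤ I f := by
    rw [div_le_iff₀ (by positivity)]
    have e : I f * (400 * κ0) = 400 * (κ0 * I f) := by ring
    rw [e]
    linarith only [h3, hD0]
  have h5 : 1 / 2 * (κ0 * I f) ≤ k * I f := by
    have := mul_le_mul_of_nonneg_right (show κ0 / 2 ≤ k by linarith only [hk, hC2]) hIf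
    linarith only [this]
  refine ⟨f, by linarith only [hα1, hf], h4, ?_⟩
  have key := h.hstep k f α hk (by linarith only [hk', hκ0]) hα.le
  rw [← hD] at key
  refine key (hα3.trans (mul_le_mul_of_nonneg_left h4 hη.le)) hf.le ?_ ?_
  · have e : 94 * κ0 * I f = 94 * (κ0 * I f) := by ring
    have e' : 2000 * k * I f = 2000 * (k * I f) := by ring
    rw [e']
    rw [e] at hhf
    linarith only [hhf, h3, h5, hD0]
  · have e' : 2000 * k * I f = 2000 * (k * I f) := by ring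
    have := g_log3
    have h2' : log 2 ≤ 0.7 := by have := Real.log_two_lt_d9; linarith only [this]
    rw [e']
    linarith only [h3, h5, this, hlow, hl2, h2']

lemma g_ratio [Nonempty F] {B k1 κ0 C2 η : ℝ} (h : GHyp H I B k1 κ0 C2 η) {k : ℝ}
    (hk : κ0 / 2 + C2 ≤ k) (hk' : k ≤ 49 / 50 * κ0) :
    3 / 2 * (iterD H I k - iterD H I (k + C2)) ≤ iterD H I (k - C2) - iterD H I k := by
  refine le_of_forall_pos_le_add fun ε hε => ?_
  obtain ⟨f, h3, -, h4⟩ := g_gain h hk hk' (ε := ε / 2) (by positivity)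
  have h5 := g_le h.hI h.h1 (k := k + C2) (by linarith only [hk, h.hk1, h.hC2]) f
  have e : (k + C2) * I f = k * I f + C2 * I f := by ring
  have e' : 3 / 2 * C2 * I f = 3 / 2 * (C2 * I f) := by ring
  rw [e] at h5
  rw [e'] at h4
  linarith only [h5, h4, h3, hε]

/-- The iteration in abstract form. -/
lemma g_abstract [Nonempty F] {B k1 κ0 C2 η : ℝ} (h : GHyp H I B k1 κ0 C2 η) (m : ℕ)
    (hm : ((m : ℝ) + 1) * C2 ≤ 47 / 100 * κ0) :
    (3 / 2) ^ (m + 1) * (C2 * (iterD H I (49 / 50 * κ0) / (400 * κ0))) ≤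
      iterD H I (49 / 50 * κ0 - ((m : ℝ) + 1) * C2) := by
  have hκ0 := h.hκ0
  have hC2 := h.hC2
  have key : ∀ j : ℕ, ((j : ℝ) + 1) * C2 ≤ 47 / 100 * κ0 →
      (3 / 2) ^ (j + 1) * (C2 * (iterD H I (49 / 50 * κ0) / (400 * κ0))) ≤
        iterD H I (49 / 50 * κ0 - ((j : ℝ) + 1) * C2) - iterD H I (49 / 50 * κ0 - j * C2) := by
    intro j
    induction j with
    | zero =>
      intro hj
      simp only [Nat.cast_zero, zero_add, one_mul, zero_mul, sub_zero, pow_one] at hj ⊢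
      obtain ⟨f, -, h3, h4⟩ := g_gain h (k := 49 / 50 * κ0) (ε := 1) (by linarith only [hj, hκ0])
        le_rfl one_pos
      have h5 := mul_le_mul_of_nonneg_left h3 hC2.le
      have e' : 3 / 2 * C2 * I f = 3 / 2 * (C2 * I f) := by ring
      rw [e'] at h4
      linarith only [h4, h5]
    | succ j ih =>
      intro hj
      push_cast at hj ⊢
      have hj0 : (0 : ℝ) ≤ j := Nat.cast_nonneg j
      have hjC : ((j : ℝ) + 1 + 1) * C2 = ((j : ℝ) + 1) * C2 + C2 := by ring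
      have hjC0 : 0 ≤ ((j : ℝ) + 1) * C2 := by positivity
      have ih' := ih (by linarith only [hj, hjC, hC2])
      have h5 := g_ratio h (k := 49 / 50 * κ0 - ((j : ℝ) + 1) * C2)
        (by linarith only [hj, hjC, hκ0]) (by linarith only [hjC0])
      have e1 : 49 / 50 * κ0 - ((j : ℝ) + 1) * C2 + C2 = 49 / 50 * κ0 - j * C2 := by ring
      have e2 : 49 / 50 * κ0 - ((j : ℝ) + 1) * C2 - C2 = 49 / 50 * κ0 - ((j : ℝ) + 1 + 1) * C2 := by
        ring
      rw [e1, e2] at h5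
      rw [pow_succ]
      linarith only [ih', h5]
  have h6 := key m hm
  have hm0 : (0 : ℝ) ≤ m := Nat.cast_nonneg m
  have hmC : ((m : ℝ) + 1) * C2 = m * C2 + C2 := by ring
  have hmC0 : 0 ≤ (m : ℝ) * C2 := by (clear * - hC2 hm0; positivity)
  have hl2 : 0 < log 2 := Real.log_pos (by norm_num)
  have h8 := h.hlow (49 / 50 * κ0 - m * C2) (by linarith only [hm, hmC, hC2, hκ0])
    (by linarith only [hmC0])
  linarith only [h6, h8, hl2]

end Abstract

variable {n : ℕ}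

/-- One scale: a defect at scale `κ0` which is at least twice the defect at scale `92 κ0` is
exponentially smaller than the defect at scale `κ0 / 2`. -/
lemma g_core {C2 K0 η : ℝ} (hC2 : 1 ≤ C2) (hη : 0 < η) (hS : StStep 2000 C2 K0 η n)
    (hLv : StLv n) {ρ : (Fin n → ℝ) → ℝ} {R : ℝ} (hρ : LCd ρ)
    (hprob : IsProbabilityMeasure (mu ρ)) (hR : CSupp (mu ρ) R) (hexp : ExpM (mu ρ) 3)
    {κ0 k1 B D D1 : ℝ} (hκ500 : 500 * C2 ≤ κ0) (hk10 : 0 ≤ k1) (hk1 : 4 * k1 ≤ κ0)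
    (hK0 : 2 * K0 ≤ κ0) (hbase : DB (mu ρ) k1 B)
    (hD : log 2 / 2 ≤ D) (h92 : DB (mu ρ) (92 * κ0) (D / 2)) (hno : ¬ DB (mu ρ) κ0 D)
    (hhf : DB (mu ρ) (κ0 / 2) D1) (m : ℕ) (hm : ((m : ℝ) + 1) * C2 ≤ 47 / 100 * κ0) :
    (3 / 2) ^ (m + 1) * (C2 * (D / (400 * κ0))) ≤ D1 := by
  have hl2 : 0 < log 2 := Real.log_pos (by norm_num)
  have hκ : 500 ≤ κ0 := by linarith only [hκ500, hC2]
  have hκp : 0 < κ0 := by linarith only [hκ]
  obtain ⟨δ, hδ⟩ : ∃ δ, δ = κ0 / 4000 := ⟨_, rfl⟩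
  have hδ0 : 0 < δ := by rw [hδ]; positivity
  have hne : Nonempty (GF (mu ρ) δ) :=
    ⟨⟨(2 * δ, fun _ => 1), ⟨le_rfl, by linarith only [hδ0]⟩, g_Pos_one, g_EY_one _ _⟩⟩
  have hlev : ∀ f : GF (mu ρ) δ, 0 < f.1.1 ∧ f.1.1 / 2 ≤ 3 / 2 * δ := by
    intro f
    have a := f.2.1.1
    have b := f.2.1.2
    constructor
    · linarith only [hδ0, a]
    · linarith only [b]
  have hup : ∀ κ D, 0 ≤ κ → DB (mu ρ) κ D → ∀ f : GF (mu ρ) δ,
      HE (mu ρ) f.1.1 f.1.2 ≤ (κ + 3 / 2 * δ) * FI (mu ρ) f.1.1 f.1.2 + D := by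
    intro κ D hκ hDB f
    have a := (hLv ρ R hρ hprob hR f.1.1 κ D (hlev f).1 hκ).1 hDB f.1.2 f.2.2.1 f.2.2.2
    have b := mul_le_mul_of_nonneg_right (hlev f).2 (g_FI_nonneg (mu ρ) f.1.1 f.2.2.1)
    rw [add_mul] at a ⊢
    linarith only [b, a]
  have hb1 := hup k1 B hk10 hbase
  have hb2 := hup (92 * κ0) (D / 2) (by positivity) h92
  have hb3 := hup (κ0 / 2) D1 (by positivity) hhf
  have hDBS : ∀ k, k1 + 3 / 2 * δ ≤ k → DBS (mu ρ) (2 * δ) δ k
      (iterD (fun f : GF (mu ρ) δ => HE (mu ρ) f.1.1 f.1.2)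
        (fun f => FI (mu ρ) f.1.1 f.1.2) k) := by
    intro k hk r hr N hN hE
    have hr' : r ∈ Icc (2 * δ) (3 * δ) := ⟨hr.1, by linarith only [hr.2]⟩
    have := g_le (H := fun f : GF (mu ρ) δ => HE (mu ρ) f.1.1 f.1.2)
      (I := fun f => FI (mu ρ) f.1.1 f.1.2) (fun f => g_FI_nonneg _ _ f.2.2.1) hb1 hk
      ⟨(r, N), hr', hN, hE⟩
    simp only at this
    linarith only [this]
  have hk1' : k1 + 3 / 2 * δ ≤ κ0 / 2 := by rw [hδ]; linarith only [hκp, hk1]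
  have hlow : ∀ k, κ0 / 2 ≤ k → k ≤ 49 / 50 * κ0 →
      D ≤ iterD (fun f : GF (mu ρ) δ => HE (mu ρ) f.1.1 f.1.2)
        (fun f => FI (mu ρ) f.1.1 f.1.2) k := by
    intro k hka hkb
    by_contra hcon
    push Not at hcon
    apply hno
    have a := hDBS k (by linarith only [hk1', hka]) (2 * δ) ⟨le_rfl, by linarith only [hδ0]⟩
    have b := (hLv ρ R hρ hprob hR (2 * δ) k _ (by linarith only [hδ0])
      (by linarith only [hκp, hka])).2 a
    exact g_DB_mono b (by rw [hδ]; linarith only [hκp, hkb]) hcon.le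
  have hG : GHyp (fun f : GF (mu ρ) δ => HE (mu ρ) f.1.1 f.1.2)
      (fun f => FI (mu ρ) f.1.1 f.1.2) B (k1 + 3 / 2 * δ) κ0 C2 η := by
    refine ⟨fun f => g_FI_nonneg _ _ f.2.2.1, hb1, hk1', hκp, by linarith only [hC2], hη,
      fun k hka hkb => hD.trans (hlow k hka hkb), ?_, ?_⟩
    · intro k hka hkb f
      have a := hb2 f
      have b : (92 * κ0 + 3 / 2 * δ) * FI (mu ρ) f.1.1 f.1.2 ≤
          94 * κ0 * FI (mu ρ) f.1.1 f.1.2 :=
        mul_le_mul_of_nonneg_right (by rw [hδ]; linarith only [hκp]) (g_FI_nonneg _ _ f.2.2.1)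
      have c := hlow k hka hkb
      linarith only [a, b, c]
    · intro k f α hka hkb hα0 hα hfa hfb hfc
      exact hS ρ R hρ hprob hR hexp f.1.2 δ k f.1.1 α _ _ (by linarith only [hC2, hK0, hka])
        (by rw [hδ]; linarith only [hkb]) (by rw [hδ]; linarith only [hC2, hka])
        (hDBS k (by linarith only [hC2, hk1', hka]))
        (hDBS (k - C2) (by linarith only [hk1', hka])) f.2.1 f.2.2.1
        f.2.2.2 hα0 hα hfa hfb hfc
  have hfin := g_abstract hG m hm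
  have hm0 : (0 : ℝ) ≤ m := Nat.cast_nonneg m
  -- upper bound at the lower end
  have hupp : iterD (fun f : GF (mu ρ) δ => HE (mu ρ) f.1.1 f.1.2)
      (fun f => FI (mu ρ) f.1.1 f.1.2) (49 / 50 * κ0 - ((m : ℝ) + 1) * C2) ≤ D1 := by
    refine g_le_B (fun f => g_FI_nonneg _ _ f.2.2.1) hb3 ?_
    rw [hδ]
    linarith only [hm, hκp]
  have hlo := hlow (49 / 50 * κ0) (by linarith only [hκp]) le_rfl
  have hmono : (3 / 2) ^ (m + 1) * (C2 * (D / (400 * κ0))) ≤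
      (3 / 2) ^ (m + 1) * (C2 * (iterD (fun f : GF (mu ρ) δ => HE (mu ρ) f.1.1 f.1.2)
        (fun f => FI (mu ρ) f.1.1 f.1.2) (49 / 50 * κ0) / (400 * κ0))) := by
    apply mul_le_mul_of_nonneg_left _ (by positivity)
    apply mul_le_mul_of_nonneg_left _ (by linarith only [hC2])
    exact div_le_div_of_nonneg_right hlo (by positivity)
  exact hmono.trans (hfin.trans hupp)

end Vale.Agent.P245.N
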