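import Vale.Agent.P245.N.Iter

/-! # P245, all entropies: induction over the scales -/

open MeasureTheory Real Set Filter Topology
open scoped ENNReal ContDiff

namespace Vale.Agent.P245.N

open LS E1

lemma s_num {X : ℝ} (hX : 500 ≤ X) :
    ∃ m : ℕ, (m : ℝ) + 1 ≤ 47 / 100 * X ∧ 8 * exp (X / 10) ≤ (3 / 2) ^ (m + 1) * (1 / (400 * X)) := by
  have hX0 : 0 < X := by linarith only [hX]
  obtain ⟨m, hm⟩ : ∃ m : ℕ, m + 1 = ⌊47 / 100 * X⌋₊ := by
    have : 1 ≤ ⌊47 / 100 * X⌋₊ := by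
      apply Nat.le_floor
      push_cast
      linarith only [hX]
    exact ⟨⌊47 / 100 * X⌋₊ - 1, by omega⟩
  have hm1 : (m : ℝ) + 1 ≤ 47 / 100 * X := by
    have := Nat.floor_le (a := 47 / 100 * X) (by positivity)
    rw [← hm] at this
    push_cast at this
    exact this
  have hm2 : 47 / 100 * X < (m : ℝ) + 1 + 1 := by
    have := Nat.lt_floor_add_one (47 / 100 * X)
    rw [← hm] at this
    push_cast at this
    exact this
  refine ⟨m, hm1, ?_⟩
  have hexp : Real.exp (2 / 5) ≤ 3 / 2 := by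
    have h5 : Real.exp (2 / 5) ^ 5 = Real.exp 1 ^ 2 := by
      rw [← Real.exp_nat_mul, ← Real.exp_nat_mul]
      norm_num
    have h6 := Real.exp_one_lt_d9
    have h0 := Real.exp_pos 1
    by_contra hcon
    push Not at hcon
    have h7 : (3 / 2 : ℝ) ^ 5 ≤ Real.exp (2 / 5) ^ 5 := pow_le_pow_left₀ (by norm_num) hcon.le 5
    rw [h5] at h7
    have h8 : Real.exp 1 ^ 2 ≤ 2.72 ^ 2 := pow_le_pow_left₀ h0.le (by linarith only [h6]) 2
    norm_num at h7 h8
    linarith only [h8, h7]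
  have h1 : Real.exp (188 / 1000 * X - 2 / 5) ≤ (3 / 2) ^ (m + 1) := by
    calc Real.exp (188 / 1000 * X - 2 / 5) ≤ Real.exp (((m : ℝ) + 1) * (2 / 5)) :=
          Real.exp_le_exp.2 (by linarith only [hm2])
      _ = Real.exp (2 / 5) ^ (m + 1) := by
          rw [← Real.exp_nat_mul]
          push_cast
          ring_nf
      _ ≤ (3 / 2) ^ (m + 1) := pow_le_pow_left₀ (Real.exp_pos _).le hexp _
  have h2 : Real.exp (188 / 1000 * X - 2 / 5) =
      Real.exp (X / 10) * (Real.exp (44 / 1000 * X) * Real.exp (44 / 1000 * X - 2 / 5)) := by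
    rw [← Real.exp_add, ← Real.exp_add]
    ring_nf
  have h3 : 44 / 1000 * X ≤ Real.exp (44 / 1000 * X) := by
    have := Real.add_one_le_exp (44 / 1000 * X)
    linarith only [this]
  have h4 : (80000 : ℝ) ≤ Real.exp (44 / 1000 * X - 2 / 5) := by
    have h10 := Real.exp_one_gt_d9
    calc (80000 : ℝ) ≤ 2 ^ 21 := by norm_num
      _ ≤ Real.exp 1 ^ 21 := pow_le_pow_left₀ (by norm_num) (by linarith only [h10]) 21
      _ = Real.exp 21 := by rw [← Real.exp_nat_mul]; norm_num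
      _ ≤ _ := Real.exp_le_exp.2 (by linarith only [hX])
  have h5 : 3200 * X ≤ Real.exp (44 / 1000 * X) * Real.exp (44 / 1000 * X - 2 / 5) := by
    calc 3200 * X ≤ (44 / 1000 * X) * 80000 := by linarith only [hX0]
      _ ≤ _ := mul_le_mul h3 h4 (by norm_num) (Real.exp_pos _).le
  have h6 : 3200 * X * exp (X / 10) ≤ (3 / 2) ^ (m + 1) := by
    refine le_trans ?_ h1
    rw [h2, mul_comm]
    exact mul_le_mul_of_nonneg_left h5 (Real.exp_pos _).le
  calc 8 * exp (X / 10) = 3200 * X * exp (X / 10) * (1 / (400 * X)) := by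
        field_simp
        norm_num
    _ ≤ _ := mul_le_mul_of_nonneg_right h6 (by positivity)

variable {n : ℕ}

/-- the optimal defect is attained -/
lemma DB_sInf {μ : Measure (Fin n → ℝ)} {κ B : ℝ} (hB0 : 0 ≤ B) (hB : DB μ κ B) :
    ∃ E, 0 ≤ E ∧ DB μ κ E ∧ ∀ D, 0 ≤ D → D < E → ¬ DB μ κ D := by
  set S : Set ℝ := {D | 0 ≤ D ∧ DB μ κ D} with hS
  have hne : S.Nonempty := ⟨B, hB0, hB⟩
  have hbd : BddBelow S := ⟨0, fun D hD => hD.1⟩
  refine ⟨sInf S, le_csInf hne fun D hD => hD.1, ?_, ?_⟩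
  · intro f hf h1
    have : HE μ 0 f - κ * FI μ 0 f ≤ sInf S := by
      refine le_csInf hne fun D hD => ?_
      have := hD.2 f hf h1
      linarith only [this]
    linarith only [this]
  · intro D hD0 hD hcon
    exact absurd (csInf_le hbd ⟨hD0, hcon⟩) (not_le.2 hD)

/-- a small defect gives no defect -/
lemma DB_tight {μ : Measure (Fin n → ℝ)} [IsProbabilityMeasure μ] {R κ : ℝ} (h : CSupp μ R)
    (hκ : 0 < κ) (hD : DB μ κ (log 2 / 2)) : DB μ (46 * κ) 0 := by
  have hl2 : 0 < log 2 := Real.log_pos (by norm_num)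
  have a1 := (thH2 n μ R κ (log 2 / 2) h hκ.le (by positivity)).1 hD
  have a2 := thH4 n μ κ hκ.le a1
  refine (thH2 n μ R (46 * κ) 0 h (by positivity) le_rfl).2 ?_
  have e : 4 * (46 * κ) = 184 * κ := by ring
  rw [e]
  exact a2

/-- the statement at scale `κ` -/
def Sc (μ : Measure (Fin n → ℝ)) (C2 κ : ℝ) : Prop :=
  ∀ D1, 0 ≤ D1 → DB μ (κ / 2) D1 → DB μ κ (max (exp (-(κ / (10 * C2))) * D1) (log 2 / 2))

/-- going down one scale -/
lemma sc_step {C2 K0 η : ℝ} (hC2 : 1 ≤ C2) (hη : 0 < η) (hS : StStep 2000 C2 K0 η n)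
    (hLv : StLv n) {ρ : (Fin n → ℝ) → ℝ} {R : ℝ} (hρ : LCd ρ)
    (hprob : IsProbabilityMeasure (mu ρ)) (hR : CSupp (mu ρ) R) (hexp : ExpM (mu ρ) 3)
    {κ k1 B : ℝ} (hκ500 : 500 * C2 ≤ κ) (hk10 : 0 ≤ k1) (hk1 : 4 * k1 ≤ κ)
    (hK0 : 2 * K0 ≤ κ) (hB0 : 0 ≤ B) (hbase : DB (mu ρ) k1 B)
    (hup : Sc (mu ρ) C2 (2 * κ)) : Sc (mu ρ) C2 κ := by
  intro D1 hD10 hD1
  have hl2 : 0.69 < log 2 := by have := Real.log_two_gt_d9; linarith only [this]
  have hl2' : log 2 < 0.7 := by have := Real.log_two_lt_d9; linarith only [this]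
  have hκp : 0 < κ := by linarith only [hκ500, hC2]
  have hC2p : 0 < C2 := by linarith only [hC2]
  have hX : 500 ≤ κ / C2 := by rw [le_div_iff₀ hC2p]; exact hκ500
  obtain ⟨d, hd⟩ : ∃ d, d = max (exp (-(κ / (10 * C2))) * D1) (log 2 / 2) := ⟨_, rfl⟩
  rw [← hd]
  have hd1 : exp (-(κ / (10 * C2))) * D1 ≤ d := by rw [hd]; exact le_max_left _ _
  have hd2 : log 2 / 2 ≤ d := by rw [hd]; exact le_max_right _ _
  by_contra hcon
  obtain ⟨E, hE0, hE, hEmin⟩ := DB_sInf (κ := κ) hB0 (g_DB_mono hbase (by linarith only [hk1, hk10]) le_rfl)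
  have hEd : d < E := by
    by_contra h
    push Not at h
    exact hcon (g_DB_mono hE le_rfl h)
  -- core conclusion
  obtain ⟨m, hm, hm'⟩ := s_num hX
  have hmC : ((m : ℝ) + 1) * C2 ≤ 47 / 100 * κ := by
    have := mul_le_mul_of_nonneg_right hm hC2p.le
    have e : 47 / 100 * (κ / C2) * C2 = 47 / 100 * κ := by field_simp
    linarith only [this, e]
  have core : ∀ D, log 2 / 2 ≤ D → DB (mu ρ) (92 * κ) (D / 2) → ¬ DB (mu ρ) κ D →
      8 * D ≤ exp (-(κ / (10 * C2))) * D1 := by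
    intro D hD h92 hno
    have h1 := g_core hC2 hη hS hLv hρ hprob hR hexp hκ500 hk10 hk1 hK0 hbase hD h92 hno hD1 m hmC
    have hD0 : 0 < D := by linarith only [hD, hl2]
    have e1 : (3 / 2 : ℝ) ^ (m + 1) * (C2 * (D / (400 * κ))) =
        (3 / 2 : ℝ) ^ (m + 1) * (1 / (400 * (κ / C2))) * D := by
      field_simp
    rw [e1] at h1
    have h2 : 8 * exp (κ / C2 / 10) * D ≤ D1 :=
      (mul_le_mul_of_nonneg_right hm' hD0.le).trans h1
    have e2 : κ / C2 / 10 = κ / (10 * C2) := by field_simp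
    rw [e2] at h2
    have h3 := mul_le_mul_of_nonneg_left h2 (exp_pos (-(κ / (10 * C2)))).le
    have e3 : exp (-(κ / (10 * C2))) * (8 * exp (κ / (10 * C2)) * D) = 8 * D := by
      have : exp (-(κ / (10 * C2))) * exp (κ / (10 * C2)) = 1 := by
        rw [← exp_add]; simp
      calc exp (-(κ / (10 * C2))) * (8 * exp (κ / (10 * C2)) * D)
          = (exp (-(κ / (10 * C2))) * exp (κ / (10 * C2))) * (8 * D) := by ring
        _ = 8 * D := by rw [this, one_mul]
    rw [e3] at h3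
    exact h3
  -- use of the upper scale
  have hupE := hup E hE0 (by
    have e : 2 * κ / 2 = κ := by ring
    rw [e]; exact hE)
  have hexp4 : exp (-(2 * κ / (10 * C2))) ≤ 1 / 4 := by
    have h1 : 100 ≤ 2 * κ / (10 * C2) := by
      rw [le_div_iff₀ (by positivity)]
      linarith only [hκ500]
    have h2 := Real.add_one_le_exp (2 * κ / (10 * C2))
    rw [exp_neg, inv_eq_one_div]
    rw [div_le_div_iff₀ (exp_pos _) (by norm_num)]
    linarith only [h1, h2]
  rcases le_or_gt (exp (-(2 * κ / (10 * C2))) * E) (log 2 / 2) with hc | hc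
  · -- small defect at scale `2 κ`
    rw [max_eq_right hc] at hupE
    have h0 := DB_tight hR (by positivity) hupE
    have h92 : DB (mu ρ) (92 * κ) (d / 2) :=
      g_DB_mono h0 (by linarith only []) (by linarith only [hd2, hl2])
    have := core d hd2 h92 hcon
    linarith only [this, hd1, hd2, hl2]
  · rw [max_eq_left hc.le] at hupE
    have h4 : exp (-(2 * κ / (10 * C2))) * E ≤ 1 / 4 * E := mul_le_mul_of_nonneg_right hexp4 hE0
    have h92 : DB (mu ρ) (92 * κ) (E / 2 / 2) :=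
      g_DB_mono hupE (by linarith only [hκp]) (by linarith only [h4])
    have hEp : 0 < E := by linarith only [hEd, hd2, hl2]
    have := core (E / 2) (by linarith only [h4, hc, hl2]) h92
      (hEmin _ (by positivity) (by linarith only [hEp]))
    linarith only [this, hd1, hEd, hEp]

/-- all scales -/
lemma sc_all {C2 K0 η : ℝ} (hC2 : 1 ≤ C2) (hη : 0 < η) (hS : StStep 2000 C2 K0 η n)
    (hLv : StLv n) {ρ : (Fin n → ℝ) → ℝ} {R : ℝ} (hn : 1 ≤ n) (hρ : LCd ρ)
    (hprob : IsProbabilityMeasure (mu ρ)) (hR : CSupp (mu ρ) R) (hexp : ExpM (mu ρ) 3)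
    {κ k1 B : ℝ} (hκ500 : 500 * C2 ≤ κ) (hk10 : 0 ≤ k1) (hk1 : 4 * k1 ≤ κ)
    (hK0 : 2 * K0 ≤ κ) (hB0 : 0 ≤ B) (hbase : DB (mu ρ) k1 B) : Sc (mu ρ) C2 κ := by
  have hl2 : 0 < log 2 := Real.log_pos (by norm_num)
  have hκp : 0 < κ := by linarith only [hκ500, hC2]
  obtain ⟨κ', hκ', h3⟩ := thH3 n ρ R hn hρ hprob hR hexp
  obtain ⟨i, hi⟩ := pow_unbounded_of_one_lt (κ' / κ) (by norm_num : (1 : ℝ) < 2)
  rw [div_lt_iff₀ hκp] at hi
  have key : ∀ j : ℕ, j ≤ i → Sc (mu ρ) C2 (2 ^ (i - j) * κ) := by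
    intro j
    induction j with
    | zero =>
      intro _ D1 hD1 _
      rw [Nat.sub_zero]
      exact g_DB_mono h3 hi.le ((by positivity : (0 : ℝ) ≤ log 2 / 2).trans (le_max_right _ _))
    | succ j ih =>
      intro hj
      have hij := ih (by omega)
      have e : i - j = (i - (j + 1)) + 1 := by omega
      rw [e, pow_succ'] at hij
      have h1 : (1 : ℝ) ≤ 2 ^ (i - (j + 1)) := one_le_pow₀ (by norm_num)
      have h2 : κ ≤ 2 ^ (i - (j + 1)) * κ := le_mul_of_one_le_left hκp.le h1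
      refine sc_step hC2 hη hS hLv hρ hprob hR hexp (hκ500.trans h2) hk10 (hk1.trans h2)
        (hK0.trans h2) hB0 hbase ?_
      rw [← mul_assoc]
      exact hij
  have := key i le_rfl
  simpa using this

/-- **Defective logarithmic Sobolev inequalities at all levels**, for compactly supported
measures, from a defective inequality `DB μ k1 B` at a bounded level. -/
theorem dl_all (hS : ∀ Λ, 1 ≤ Λ → ∃ C2 K0 η, 1 ≤ C2 ∧ 1 ≤ K0 ∧ 0 < η ∧ ∀ n, StStep Λ C2 K0 η n)
    (hLv : ∀ n, StLv n) (k1 : ℝ) (hk1 : 0 ≤ k1) : ∃ C, 0 < C ∧ ∀ (n : ℕ) (ρ : (Fin n → ℝ) → ℝ)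
      (R B k : ℝ), 1 ≤ n → LCd ρ → IsProbabilityMeasure (mu ρ) → CSupp (mu ρ) R →
      ExpM (mu ρ) 3 → 0 ≤ B → DB (mu ρ) k1 B → 1 ≤ k → DL (mu ρ) (C * k) (B * exp (-k)) := by
  obtain ⟨C2, K0, η, hC2, hK0, hη, hS⟩ := hS 2000 (by norm_num)
  refine ⟨184 * (500 * C2 + 2 * K0 + 8 * k1), by positivity, ?_⟩
  intro n ρ R B k hn hρ hprob hR hexp hB0 hbase hk
  have hl2 : 0 < log 2 := Real.log_pos (by norm_num)
  obtain ⟨κ, hκ⟩ : ∃ κ, κ = (500 * C2 + 2 * K0 + 8 * k1) * k := ⟨_, rfl⟩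
  have hk0 : 0 < k := by linarith only [hk]
  have a1 : 500 * C2 * k ≤ κ := by
    rw [hκ]
    exact mul_le_mul_of_nonneg_right (by linarith only [hK0, hk1]) hk0.le
  have a2 : 2 * K0 * k ≤ κ := by
    rw [hκ]
    exact mul_le_mul_of_nonneg_right (by linarith only [hC2, hk1]) hk0.le
  have a3 : 8 * k1 * k ≤ κ := by
    rw [hκ]
    exact mul_le_mul_of_nonneg_right (by linarith only [hC2, hK0]) hk0.le
  have b1 : 500 * C2 ≤ κ := (le_mul_of_one_le_right (by positivity) hk).trans a1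
  have b2 : 2 * K0 ≤ κ := (le_mul_of_one_le_right (by positivity) hk).trans a2
  have b3 : 8 * k1 ≤ κ := (le_mul_of_one_le_right (by positivity) hk).trans a3
  have hκp : 0 < κ := by linarith only [b1, hC2]
  have hsc := sc_all hC2 hη (hS n) (hLv n) hn hρ hprob hR hexp b1 hk1 (by linarith only [b3, hk1])
    b2 hB0 hbase
  have h1 := hsc B hB0 (g_DB_mono hbase (by linarith only [b3, hk1]) le_rfl)
  have hexp' : exp (-(κ / (10 * C2))) ≤ exp (-k) := by
    apply exp_le_exp.2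
    have : k ≤ κ / (10 * C2) := by
      rw [le_div_iff₀ (by positivity)]
      have : 0 ≤ 490 * C2 * k := by positivity
      linarith only [a1, this]
    linarith only [this]
  have h2 := mul_le_mul_of_nonneg_right hexp' hB0
  have hcd : 0 ≤ B * exp (-k) := by positivity
  have e : 184 * (500 * C2 + 2 * K0 + 8 * k1) * k = 184 * κ := by rw [hκ]; ring
  rw [e]
  rcases le_or_gt (exp (-(κ / (10 * C2))) * B) (log 2 / 2) with hc | hc
  · rw [max_eq_right hc] at h1
    have h3 := DB_tight hR hκp h1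
    have h4 := g_DB_mono h3 le_rfl hcd
    have h5 := (thH2 n (mu ρ) R _ _ hR (by positivity) hcd).1 h4
    have e : 4 * (46 * κ) = 184 * κ := by ring
    rw [e] at h5
    exact h5
  · rw [max_eq_left hc.le] at h1
    have h4 : DB (mu ρ) (46 * κ) (B * exp (-k)) :=
      g_DB_mono h1 (by linarith only [hκp]) (by linarith only [h2])
    have h5 := (thH2 n (mu ρ) R _ _ hR (by positivity) hcd).1 h4
    have e : 4 * (46 * κ) = 184 * κ := by ring
    rw [e] at h5
    exact h5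

end Vale.Agent.P245.N
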